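import Crest.Agent.R082.Defs

/-!
Row 82: basic facts on `uniformProbOn K`.
-/

set_option autoImplicit false

open MeasureTheory
open scoped ENNReal NNReal
open Crest.AnalysisR.OT

namespace Crest.Agent.R082

variable {d : ℕ}

theorem volume_ne_zero_of_interior {K : Set (E d)} (hKi : (interior K).Nonempty) :
    volume K ≠ 0 :=
  (Measure.measure_pos_of_nonempty_interior volume hKi).ne'

theorem isProbabilityMeasure_uniformProbOn {K : Set (E d)} (hKc : IsCompact K)
    (hKi : (interior K).Nonempty) : IsProbabilityMeasure (uniformProbOn K) := by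
  constructor
  unfold uniformProbOn
  rw [Measure.smul_apply, Measure.restrict_apply MeasurableSet.univ, Set.univ_inter, smul_eq_mul]
  exact ENNReal.inv_mul_cancel (volume_ne_zero_of_interior hKi) hKc.measure_lt_top.ne

theorem uniformProbOn_ac (K : Set (E d)) : uniformProbOn K ≪ volume :=
  (Measure.absolutelyContinuous_of_le (Measure.restrict_le_self)).smul_left _

theorem uniformProbOn_compl {K : Set (E d)} (hK : MeasurableSet K) : uniformProbOn K Kᶜ = 0 := by
  unfold uniformProbOn
  rw [Measure.smul_apply, Measure.restrict_apply hK.compl]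
  simp

theorem ae_mem_uniformProbOn {K : Set (E d)} (hK : MeasurableSet K) :
    ∀ᵐ x ∂(uniformProbOn K), x ∈ K := by
  rw [ae_iff]
  exact uniformProbOn_compl hK




theorem integrable_h {K : Set (E d)} (hKc : IsCompact K)
    (hKi : (interior K).Nonempty) {h : E d → ℝ} (hm : Measurable h)
    (hb : ∀ x, |h x - 1| ≤ 1 / 2) : Integrable h (uniformProbOn K) := by
  have := isProbabilityMeasure_uniformProbOn hKc hKi
  refine Integrable.of_bound hm.aestronglyMeasurable 2 (Filter.Eventually.of_forall fun x => ?_)
  have := abs_le.1 (hb x)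
  rw [Real.norm_eq_abs, abs_le]
  constructor <;> linarith

theorem isProbabilityMeasure_rhoh {K : Set (E d)} (hKc : IsCompact K)
    (hKi : (interior K).Nonempty) {h : E d → ℝ} (hm : Measurable h)
    (hb : ∀ x, |h x - 1| ≤ 1 / 2) (h1 : ∫ x, h x ∂(uniformProbOn K) = 1) :
    IsProbabilityMeasure (rhoh K h) := by
  have := isProbabilityMeasure_uniformProbOn hKc hKi
  constructor
  unfold rhoh
  rw [withDensity_apply _ MeasurableSet.univ, Measure.restrict_univ,
    ← ofReal_integral_eq_lintegral_ofReal (integrable_h hKc hKi hm hb), h1, ENNReal.ofReal_one]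
  refine Filter.Eventually.of_forall fun x => ?_
  have := abs_le.1 (hb x)
  show 0 ≤ h x
  linarith

theorem rhoh_ac (K : Set (E d)) (h : E d → ℝ) : rhoh K h ≪ volume :=
  (withDensity_absolutelyContinuous _ _).trans (uniformProbOn_ac K)

theorem rhoh_compl {K : Set (E d)} (hK : MeasurableSet K) (h : E d → ℝ) : rhoh K h Kᶜ = 0 :=
  withDensity_absolutelyContinuous _ _ (uniformProbOn_compl hK)

/-- Set integrals against `rhoh K h`. -/
theorem setIntegral_rhoh {K : Set (E d)} {h : E d → ℝ} (hm : Measurable h)
    (hb : ∀ x, |h x - 1| ≤ 1 / 2) {F : Type*} [NormedAddCommGroup F]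
    [NormedSpace ℝ F] (s : Set (E d)) (hs : MeasurableSet s) (f : E d → F) :
    ∫ x in s, f x ∂(rhoh K h) = ∫ x in s, h x • f x ∂(uniformProbOn K) := by
  unfold rhoh
  rw [restrict_withDensity hs, integral_withDensity_eq_integral_toReal_smul]
  · apply integral_congr_ae
    refine Filter.Eventually.of_forall fun x => ?_
    have := abs_le.1 (hb x)
    simp only
    rw [ENNReal.toReal_ofReal (by linarith)]
  · exact hm.ennreal_ofReal
  · exact Filter.Eventually.of_forall fun x => ENNReal.ofReal_lt_top


end Crest.Agent.R082
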