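import Crest.Agent.R082.SemiDisc
import Crest.Agent.R082.Unif

-- ▼ part R082/Path
section

/-!
Row 82: the value `TT`, merging of labels, subgradients in the positions of the atoms.
-/

set_option autoImplicit false

open MeasureTheory
open scoped ENNReal NNReal
open Crest.AnalysisR.OT

namespace Crest.Agent.R082

variable {d : ℕ} {ι κ : Type} [Fintype ι] [Nonempty ι] [Fintype κ] [Nonempty κ]

theorem bddBelow_Kfun {K : Set (E d)} (hK : IsCompact K) (ρ : Measure (E d))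
    [IsProbabilityMeasure ρ] (hρK : ρ Kᶜ = 0)
    (m : ι → ℝ) (hm : ∀ i, 0 < m i) (hm1 : ∑ i, m i = 1) (y : ι → E d) :
    BddBelow (Set.range (fun ψ : ι → ℝ => Kfun ρ m y ψ)) := by
  obtain ⟨ψ, hψ⟩ := exists_minimizer K hK ρ hρK m hm hm1 y
  exact ⟨Kfun ρ m y ψ, by rintro _ ⟨ψ', rfl⟩; exact hψ ψ'⟩

theorem TT_le {K : Set (E d)} (hK : IsCompact K) (ρ : Measure (E d))
    [IsProbabilityMeasure ρ] (hρK : ρ Kᶜ = 0)
    (m : ι → ℝ) (hm : ∀ i, 0 < m i) (hm1 : ∑ i, m i = 1) (y : ι → E d) (ψ : ι → ℝ) :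
    TT ρ m y ≤ Kfun ρ m y ψ :=
  ciInf_le (bddBelow_Kfun hK ρ hρK m hm hm1 y) ψ

theorem le_TT (ρ : Measure (E d)) (m : ι → ℝ) (y : ι → E d) (c : ℝ)
    (h : ∀ ψ : ι → ℝ, c ≤ Kfun ρ m y ψ) : c ≤ TT ρ m y :=
  le_ciInf h

theorem TT_eq_of_min {K : Set (E d)} (hK : IsCompact K) (ρ : Measure (E d))
    [IsProbabilityMeasure ρ] (hρK : ρ Kᶜ = 0)
    (m : ι → ℝ) (hm : ∀ i, 0 < m i) (hm1 : ∑ i, m i = 1) (y : ι → E d) (ψ : ι → ℝ)
    (hψ : ∀ ψ' : ι → ℝ, Kfun ρ m y ψ ≤ Kfun ρ m y ψ') :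
    TT ρ m y = Kfun ρ m y ψ :=
  le_antisymm (TT_le hK ρ hρK m hm hm1 y ψ) (le_TT ρ m y _ hψ)

omit [Nonempty ι] [Nonempty κ] in
/-- Sums over fibres. -/
theorem sum_fiber [DecidableEq κ] (g : ι → κ) (m : ι → ℝ) (m' : κ → ℝ)
    (hm' : ∀ k, m' k = ∑ i with g i = k, m i) (F : κ → ℝ) :
    ∑ k, m' k * F k = ∑ i, m i * F (g i) := by
  rw [← Finset.sum_fiberwise (s := Finset.univ) (g := g) (f := fun i => m i * F (g i))]
  refine Finset.sum_congr rfl fun k _ => ?_
  rw [hm' k, Finset.sum_mul]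
  refine Finset.sum_congr rfl fun i hi => ?_
  rw [(Finset.mem_filter.1 hi).2]

theorem phi_comp (g : ι → κ) (hg : Function.Surjective g) (y' : κ → E d) (ψ' : κ → ℝ) (x : E d) :
    phi (y' ∘ g) (ψ' ∘ g) x = phi y' ψ' x := by
  apply le_antisymm
  · rw [phi_le_iff]
    intro i
    exact le_phi y' ψ' x (g i)
  · rw [phi_le_iff]
    intro k
    obtain ⟨i, rfl⟩ := hg k
    exact le_phi (y' ∘ g) (ψ' ∘ g) x i

/-- Merging labels. -/
theorem TT_comp [DecidableEq κ] {K : Set (E d)} (hK : IsCompact K) (ρ : Measure (E d))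
    [IsProbabilityMeasure ρ] (hρK : ρ Kᶜ = 0) (g : ι → κ) (hg : Function.Surjective g)
    (m : ι → ℝ) (hm : ∀ i, 0 < m i) (hm1 : ∑ i, m i = 1) (m' : κ → ℝ)
    (hm' : ∀ k, m' k = ∑ i with g i = k, m i) (y' : κ → E d) :
    TT ρ m (fun i => y' (g i)) = TT ρ m' y' := by
  have hm'pos : ∀ k, 0 < m' k := by
    intro k
    rw [hm' k]
    obtain ⟨i, hi⟩ := hg k
    exact Finset.sum_pos (fun i _ => hm i) ⟨i, by simp [hi]⟩
  have hm'1 : ∑ k, m' k = 1 := by
    have := sum_fiber g m m' hm' (fun _ => 1)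
    simpa [hm1] using this
  apply le_antisymm
  · apply le_TT
    intro ψ'
    refine (TT_le hK ρ hρK m hm hm1 _ (ψ' ∘ g)).trans (le_of_eq ?_)
    unfold Kfun
    have h1 : ∀ x, phi (fun i => y' (g i)) (ψ' ∘ g) x = phi y' ψ' x :=
      fun x => phi_comp g hg y' ψ' x
    simp_rw [h1]
    rw [sum_fiber g m m' hm' ψ']
    rfl
  · apply le_TT
    intro ψ
    have hex : ∀ k : κ, ∃ i, g i = k ∧ ∀ j, g j = k → ψ i ≤ ψ j := by
      intro k
      obtain ⟨i₀, hi₀⟩ := hg k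
      obtain ⟨i, hi, hmin⟩ := Finset.exists_min_image (Finset.univ.filter fun i => g i = k) ψ
        ⟨i₀, by simp [hi₀]⟩
      exact ⟨i, (Finset.mem_filter.1 hi).2, fun j hj => hmin j (by simp [hj])⟩
    choose a ha hamin using hex
    refine (TT_le hK ρ hρK m' hm'pos hm'1 _ (fun k => ψ (a k))).trans ?_
    unfold Kfun
    apply add_le_add
    · apply integral_mono (integrable_of_continuous hK ρ hρK _ (continuous_phi _ _))
        (integrable_of_continuous hK ρ hρK _ (continuous_phi _ _))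
      intro x
      show phi y' (fun k => ψ (a k)) x ≤ phi (fun i => y' (g i)) ψ x
      rw [phi_le_iff]
      intro k
      have := le_phi (fun i => y' (g i)) ψ x (a k)
      simp only [ha] at this
      exact this
    · rw [sum_fiber g m m' hm' (fun k => ψ (a k))]
      apply Finset.sum_le_sum
      intro i _
      exact mul_le_mul_of_nonneg_left (hamin (g i) i rfl) (hm i).le

omit [Fintype κ] [Nonempty κ] in
/-- Cells with distinct atoms overlap in a null set. -/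
theorem cell_inter_null (K : Set (E d)) (ρ : Measure (E d)) (hρ : ρ ≪ volume)
    (y : κ → E d) (hy : Function.Injective y) (ψ : κ → ℝ) (i j : κ) (hij : i ≠ j) :
    ρ (cell K y ψ i ∩ cell K y ψ j) = 0 := by
  apply hρ
  refine measure_mono_null ?_ (volume_hyperplane (y i - y j) (sub_ne_zero.2 fun h => hij (hy h))
    (ψ i - ψ j))
  intro x hx
  have h1 := hx.1.2 j
  have h2 := hx.2.2 i
  show inner ℝ x (y i - y j) = ψ i - ψ j
  rw [inner_sub_right]
  linarith

/-- Splitting an integral over the cells. -/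
theorem integral_eq_sum_cell {K : Set (E d)} (hK : IsCompact K) (ρ : Measure (E d))
    (hρ : ρ ≪ volume) (hρK : ρ Kᶜ = 0) (y : κ → E d) (hy : Function.Injective y) (ψ : κ → ℝ)
    {F : Type*} [NormedAddCommGroup F] [NormedSpace ℝ F] (f : E d → F) (hf : Integrable f ρ) :
    ∫ x, f x ∂ρ = ∑ k, ∫ x in cell K y ψ k, f x ∂ρ := by
  have h1 : ∫ x, f x ∂ρ = ∫ x in K, f x ∂ρ := by rw [restrict_eq_of_compl hρK]
  rw [h1, ← iUnion_cell K y ψ, integral_iUnion_ae, tsum_fintype, iUnion_cell K y ψ]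
  · intro k
    exact (measurableSet_cell hK.isClosed y ψ k).nullMeasurableSet
  · intro i j hij
    exact cell_inter_null K ρ hρ y hy ψ i j hij
  · exact hf.integrableOn

/-- Set integral of an affine function over a cell. -/
theorem setIntegral_affine {K : Set (E d)} (hK : IsCompact K) (ρ : Measure (E d))
    [IsFiniteMeasure ρ] (s : Set (E d)) (hs : s ⊆ K) (w : E d) (c : ℝ) :
    ∫ x in s, (inner ℝ x w - c) ∂ρ = inner ℝ (∫ x in s, x ∂ρ) w - c * ρ.real s := by
  have hid : IntegrableOn (fun x : E d => x) s ρ :=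
    (continuous_id.continuousOn.integrableOn_compact hK).mono_set hs
  rw [integral_sub (hid.inner_const w) (integrable_const c)]
  congr 1
  · calc ∫ x in s, inner ℝ x w ∂ρ = ∫ x in s, inner ℝ w x ∂ρ := by
          congr 1; ext x; exact real_inner_comm _ _
      _ = inner ℝ w (∫ x in s, x ∂ρ) := integral_inner (𝕜 := ℝ) hid w
      _ = inner ℝ (∫ x in s, x ∂ρ) w := real_inner_comm _ _
  · rw [integral_const, smul_eq_mul, mul_comm]
    simp

/-- Data describing an optimal partition for merged labels. -/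
theorem exists_subgrad [DecidableEq κ] {K : Set (E d)} (hK : IsCompact K) (ρ : Measure (E d))
    [IsProbabilityMeasure ρ] (hρ : ρ ≪ volume) (hρK : ρ Kᶜ = 0)
    (g : ι → κ) (hg : Function.Surjective g)
    (m : ι → ℝ) (hm : ∀ i, 0 < m i) (hm1 : ∑ i, m i = 1) (m' : κ → ℝ)
    (hm' : ∀ k, m' k = ∑ i with g i = k, m i) (y' : κ → E d) (hy' : Function.Injective y')
    (ψ : κ → ℝ) (hψ : ∀ ψ' : κ → ℝ, Kfun ρ m' y' ψ ≤ Kfun ρ m' y' ψ')
    (hψm : ∀ k, ρ (cell K y' ψ k) = ENNReal.ofReal (m' k)) (w : ι → E d) :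
    TT ρ m (fun i => y' (g i)) + ∑ i, m i * ((m' (g i))⁻¹ *
      inner ℝ (∫ x in cell K y' ψ (g i), x ∂ρ) (w i - y' (g i))) ≤ TT ρ m w := by
  have hm'pos : ∀ k, 0 < m' k := by
    intro k
    rw [hm' k]
    obtain ⟨i, hi⟩ := hg k
    exact Finset.sum_pos (fun i _ => hm i) ⟨i, by simp [hi]⟩
  have hm'1 : ∑ k, m' k = 1 := by
    have := sum_fiber g m m' hm' (fun _ => 1)
    simpa [hm1] using this
  have hreal : ∀ k, ρ.real (cell K y' ψ k) = m' k := by
    intro k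
    rw [measureReal_def, hψm k, ENNReal.toReal_ofReal (hm'pos k).le]
  have hcm : ∀ k, MeasurableSet (cell K y' ψ k) := fun k => measurableSet_cell hK.isClosed y' ψ k
  have hcK : ∀ k, cell K y' ψ k ⊆ K := fun k x hx => hx.1
  -- value at the merged family
  have hval : TT ρ m (fun i => y' (g i)) =
      ∑ i, m i * ((m' (g i))⁻¹ * inner ℝ (∫ x in cell K y' ψ (g i), x ∂ρ) (y' (g i))) := by
    rw [TT_comp hK ρ hρK g hg m hm hm1 m' hm' y', TT_eq_of_min hK ρ hρK m' hm'pos hm'1 y' ψ hψ]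
    rw [← sum_fiber g m m' hm'
      (fun k => (m' k)⁻¹ * inner ℝ (∫ x in cell K y' ψ k, x ∂ρ) (y' k))]
    unfold Kfun
    rw [integral_eq_sum_cell hK ρ hρ hρK y' hy' ψ _
      (integrable_of_continuous hK ρ hρK _ (continuous_phi _ _)), ← Finset.sum_add_distrib]
    refine Finset.sum_congr rfl fun k _ => ?_
    rw [setIntegral_congr_fun (hcm k) (fun x hx => phi_eq_of_mem_cell hx),
      setIntegral_affine hK ρ _ (hcK k), hreal k, ← mul_assoc,
      mul_inv_cancel₀ (hm'pos k).ne']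
    ring
  rw [hval, ← Finset.sum_add_distrib]
  have e1 : ∀ i, m i * ((m' (g i))⁻¹ * inner ℝ (∫ x in cell K y' ψ (g i), x ∂ρ) (y' (g i))) +
      m i * ((m' (g i))⁻¹ * inner ℝ (∫ x in cell K y' ψ (g i), x ∂ρ) (w i - y' (g i))) =
      m i * ((m' (g i))⁻¹ * inner ℝ (∫ x in cell K y' ψ (g i), x ∂ρ) (w i)) := by
    intro i
    rw [inner_sub_right]
    ring
  simp_rw [e1]
  apply le_TT
  intro φ
  unfold Kfun
  rw [integral_eq_sum_cell hK ρ hρ hρK y' hy' ψ _
      (integrable_of_continuous hK ρ hρK _ (continuous_phi _ _))]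
  -- each cell integral dominates the average over the fibre
  have e3 : ∑ k, ∫ x in cell K y' ψ k, phi w φ x ∂ρ =
      ∑ i, m i * ((m' (g i))⁻¹ * ∫ x in cell K y' ψ (g i), phi w φ x ∂ρ) := by
    rw [← sum_fiber g m m' hm' (fun k => (m' k)⁻¹ * ∫ x in cell K y' ψ k, phi w φ x ∂ρ)]
    refine Finset.sum_congr rfl fun k _ => ?_
    rw [← mul_assoc, mul_inv_cancel₀ (hm'pos _).ne', one_mul]
  rw [e3, ← Finset.sum_add_distrib]
  apply Finset.sum_le_sum
  intro i _
  have h1 : ∫ x in cell K y' ψ (g i), (inner ℝ x (w i) - φ i) ∂ρ ≤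
      ∫ x in cell K y' ψ (g i), phi w φ x ∂ρ := by
    apply integral_mono
    · exact (integrable_of_continuous hK ρ hρK _ (by fun_prop)).integrableOn
    · exact (integrable_of_continuous hK ρ hρK _ (continuous_phi _ _)).integrableOn
    · intro x
      exact le_phi w φ x i
  rw [setIntegral_affine hK ρ _ (hcK _), hreal] at h1
  have h2 : (m' (g i))⁻¹ * (inner ℝ (∫ x in cell K y' ψ (g i), x ∂ρ) (w i) - φ i * m' (g i)) ≤
      (m' (g i))⁻¹ * ∫ x in cell K y' ψ (g i), phi w φ x ∂ρ :=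
    mul_le_mul_of_nonneg_left h1 (inv_nonneg.2 (hm'pos _).le)
  have h3 : (m' (g i))⁻¹ * (inner ℝ (∫ x in cell K y' ψ (g i), x ∂ρ) (w i) - φ i * m' (g i)) =
      (m' (g i))⁻¹ * inner ℝ (∫ x in cell K y' ψ (g i), x ∂ρ) (w i) - φ i := by
    have := (hm'pos (g i)).ne'
    field_simp
  rw [h3] at h2
  nlinarith [mul_le_mul_of_nonneg_left h2 (hm i).le]

/-- Telescoping. -/
theorem telescoping (τ₁ τ₀ q₁ q₀ : ℝ → ℝ) (D : ℝ)
    (h1 : ∀ s ∈ Set.Icc (0:ℝ) 1, ∀ t ∈ Set.Icc (0:ℝ) 1, τ₁ s + (t - s) * q₁ s ≤ τ₁ t)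
    (h0 : ∀ s ∈ Set.Icc (0:ℝ) 1, ∀ t ∈ Set.Icc (0:ℝ) 1, τ₀ s + (t - s) * q₀ s ≤ τ₀ t)
    (hD : ∀ s ∈ Set.Icc (0:ℝ) 1, q₁ s - q₀ s ≤ D) :
    τ₁ 1 - τ₁ 0 - (τ₀ 1 - τ₀ 0) ≤ D := by
  have key : ∀ n : ℕ, τ₁ 1 - τ₁ 0 - (τ₀ 1 - τ₀ 0) ≤ D + (q₀ 1 - q₀ 0) * (1 / ((n : ℝ) + 1)) := by
    intro n
    have hn : (0 : ℝ) < (n : ℝ) + 1 := by positivity
    set p : ℕ → ℝ := fun k => (k : ℝ) / ((n : ℝ) + 1) with hp
    have hpm : ∀ k, k ≤ n + 1 → p k ∈ Set.Icc (0:ℝ) 1 := by
      intro k hk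
      constructor
      · exact div_nonneg (Nat.cast_nonneg _) hn.le
      · rw [div_le_one hn]
        exact_mod_cast hk
    have hstep : ∀ k, p (k + 1) - p k = 1 / ((n : ℝ) + 1) := by
      intro k
      simp only [hp]
      push_cast
      ring
    have hk : ∀ k, k < n + 1 → (τ₁ (p (k + 1)) - τ₀ (p (k + 1))) - (τ₁ (p k) - τ₀ (p k)) ≤
        1 / ((n : ℝ) + 1) * (D + (q₀ (p (k + 1)) - q₀ (p k))) := by
      intro k hk
      have a := hpm k hk.le
      have b := hpm (k + 1) hk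
      have c1 := h1 _ b _ a
      have c2 := h0 _ a _ b
      have c3 := hD _ b
      have c4 := hstep k
      have c5 : p k - p (k + 1) = - (1 / ((n : ℝ) + 1)) := by linarith
      rw [c4] at c2
      rw [c5] at c1
      have c6 : 1 / ((n : ℝ) + 1) * (q₁ (p (k + 1)) - q₀ (p (k + 1))) ≤ 1 / ((n : ℝ) + 1) * D :=
        mul_le_mul_of_nonneg_left c3 (by positivity)
      nlinarith
    have hsum := Finset.sum_le_sum (s := Finset.range (n + 1)) (fun k hk' => hk k (Finset.mem_range.1 hk'))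
    rw [Finset.sum_range_sub (fun k => τ₁ (p k) - τ₀ (p k)), ← Finset.mul_sum,
      Finset.sum_add_distrib, Finset.sum_range_sub (fun k => q₀ (p k))] at hsum
    have hp0 : p 0 = 0 := by simp [hp]
    have hp1 : p (n + 1) = 1 := by
      simp only [hp]
      push_cast
      exact div_self hn.ne'
    rw [hp0, hp1] at hsum
    simp only [Finset.sum_const, Finset.card_range, nsmul_eq_mul] at hsum
    push_cast at hsum
    have e : 1 / ((n : ℝ) + 1) * (((n : ℝ) + 1) * D + (q₀ 1 - q₀ 0)) =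
        D + (q₀ 1 - q₀ 0) * (1 / ((n : ℝ) + 1)) := by
      field_simp
    rw [e] at hsum
    linarith
  have hlim : Filter.Tendsto (fun n : ℕ => D + (q₀ 1 - q₀ 0) * (1 / ((n : ℝ) + 1))) Filter.atTop
      (nhds (D + (q₀ 1 - q₀ 0) * 0)) :=
    (tendsto_one_div_add_atTop_nhds_zero_nat.const_mul _).const_add _
  rw [mul_zero, add_zero] at hlim
  exact ge_of_tendsto' hlim key

end Crest.Agent.R082
end

-- ▼ part R082/Cross

/-!
Row 82: the cross difference estimate (X) from the key lemma.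
-/

set_option autoImplicit false

open MeasureTheory
open scoped ENNReal NNReal
open Crest.AnalysisR.OT

namespace Crest.Agent.R082

variable {d : ℕ} {ι κ : Type} [Fintype ι] [Nonempty ι] [Fintype κ] [Nonempty κ]

/-- The conclusion of the key lemma for `K` with constant `C`: first moments of Laguerre cells
are controlled by their masses. -/
def MomentBound (K : Set (E d)) (C : ℝ) : Prop :=
  ∀ (ι : Type) [Fintype ι] [Nonempty ι] (y : ι → E d) (_ : Function.Injective y)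
      (ψ ψ' : ι → ℝ),
      ∑ i, ‖(∫ x in cell K y ψ i, x ∂(uniformProbOn K)) - ∫ x in cell K y ψ' i, x ∂(uniformProbOn K)‖ ^ 2 /
          max ((uniformProbOn K).real (cell K y ψ i)) ((uniformProbOn K).real (cell K y ψ' i)) ≤
        C * ∑ i, ((uniformProbOn K).real (cell K y ψ i) - (uniformProbOn K).real (cell K y ψ' i)) ^ 2 /
          max ((uniformProbOn K).real (cell K y ψ i)) ((uniformProbOn K).real (cell K y ψ' i))

/-- Cauchy-Schwarz on a set. -/
theorem sq_setIntegral_abs_le (ρ : Measure (E d)) [IsFiniteMeasure ρ] (s : Set (E d))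
    (f : E d → ℝ) (hf : Integrable f ρ) (hf2 : Integrable (fun x => f x ^ 2) ρ)
    (hs : 0 < ρ.real s) :
    (∫ x in s, |f x| ∂ρ) ^ 2 ≤ ρ.real s * ∫ x in s, f x ^ 2 ∂ρ := by
  set a := ∫ x in s, |f x| ∂ρ with ha
  set M := ρ.real s with hM
  set e := ∫ x in s, f x ^ 2 ∂ρ with he
  have h0 : 0 ≤ ∫ x in s, (|f x| - a / M) ^ 2 ∂ρ := integral_nonneg fun x => sq_nonneg _
  have h1 : ∫ x in s, (|f x| - a / M) ^ 2 ∂ρ = e - 2 * (a / M) * a + (a / M) ^ 2 * M := by
    have e1 : ∀ x, (|f x| - a / M) ^ 2 = f x ^ 2 - 2 * (a / M) * |f x| + (a / M) ^ 2 := by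
      intro x
      rw [sub_sq, sq_abs]
      ring
    simp_rw [e1]
    have i1 : Integrable (fun x => f x ^ 2) (ρ.restrict s) := hf2.integrableOn
    have i2 : Integrable (fun x => 2 * (a / M) * |f x|) (ρ.restrict s) :=
      (hf.abs.integrableOn).const_mul _
    have i3 : Integrable (fun x => f x ^ 2 - 2 * (a / M) * |f x|) (ρ.restrict s) := i1.sub i2
    rw [integral_add i3 (integrable_const _), integral_sub i1 i2, integral_const_mul,
      integral_const, smul_eq_mul]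
    simp only [measureReal_restrict_apply MeasurableSet.univ, Set.univ_inter]
    rw [mul_comm (ρ.real s)]
  rw [h1] at h0
  have h2 : e - 2 * (a / M) * a + (a / M) ^ 2 * M = e - a ^ 2 / M := by
    field_simp
    ring
  rw [h2] at h0
  have h3 : a ^ 2 / M ≤ e := by linarith
  rw [div_le_iff₀ hs] at h3
  linarith

theorem moment_diff {K : Set (E d)} (hK : IsCompact K) (hKi : (interior K).Nonempty)
    (R : ℝ) (hR : ∀ x ∈ K, ‖x‖ ≤ R) (C : ℝ) (hC : 0 ≤ C) (hMB : MomentBound K C)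
    (h : E d → ℝ) (hm : Measurable h) (hb : ∀ x, |h x - 1| ≤ 1 / 2)
    (m' : κ → ℝ) (hm' : ∀ k, 0 < m' k)
    (y' : κ → E d) (hy' : Function.Injective y') (ψ0 ψ1 : κ → ℝ)
    (h0m : ∀ k, uniformProbOn K (cell K y' ψ0 k) = ENNReal.ofReal (m' k))
    (h1m : ∀ k, rhoh K h (cell K y' ψ1 k) = ENNReal.ofReal (m' k)) :
    ∑ k, (m' k)⁻¹ * ‖(∫ x in cell K y' ψ1 k, x ∂(rhoh K h)) -
        ∫ x in cell K y' ψ0 k, x ∂(uniformProbOn K)‖ ^ 2 ≤
      (4 * C + 4 * R ^ 2) * ∫ x, (h x - 1) ^ 2 ∂(uniformProbOn K) := by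
  have hprob := isProbabilityMeasure_uniformProbOn hK hKi
  have hR0 : 0 ≤ R := by
    obtain ⟨x, hx⟩ := hKi
    exact (norm_nonneg x).trans (hR x (interior_subset hx))
  set ρ := uniformProbOn K with hρdef
  have hρ : ρ ≪ volume := uniformProbOn_ac K
  have hρK : ρ Kᶜ = 0 := uniformProbOn_compl hK.isClosed.measurableSet
  have hcm : ∀ ψ : κ → ℝ, ∀ k, MeasurableSet (cell K y' ψ k) :=
    fun ψ k => measurableSet_cell hK.isClosed y' ψ k
  have hcK : ∀ ψ : κ → ℝ, ∀ k, cell K y' ψ k ⊆ K := fun ψ k x hx => hx.1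
  have hbd : ∀ x, 1 / 2 ≤ h x ∧ h x ≤ 3 / 2 := by
    intro x
    have := abs_le.1 (hb x)
    constructor <;> linarith
  have hih : Integrable h ρ := integrable_h hK hKi hm hb
  have hih1 : Integrable (fun x => h x - 1) ρ := hih.sub (integrable_const 1)
  have hih2 : Integrable (fun x => (h x - 1) ^ 2) ρ := by
    refine Integrable.of_bound ((hm.sub_const 1).pow_const 2).aestronglyMeasurable 1
      (Filter.Eventually.of_forall fun x => ?_)
    have := abs_le.1 (hb x)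
    rw [Real.norm_eq_abs, abs_le]
    constructor <;> nlinarith
  set M1 : κ → ℝ := fun k => ρ.real (cell K y' ψ1 k) with hM1
  set e : κ → ℝ := fun k => ∫ x in cell K y' ψ1 k, (h x - 1) ^ 2 ∂ρ with he
  set a : κ → ℝ := fun k => ∫ x in cell K y' ψ1 k, |h x - 1| ∂ρ with ha
  have hsum : ∑ k, e k = ∫ x, (h x - 1) ^ 2 ∂ρ :=
    (integral_eq_sum_cell hK ρ hρ hρK y' hy' ψ1 _ hih2).symm
  have he0 : ∀ k, 0 ≤ e k := fun k => integral_nonneg fun x => sq_nonneg _
  have hM0 : ∀ k, ρ.real (cell K y' ψ0 k) = m' k := by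
    intro k
    rw [measureReal_def, h0m k, ENNReal.toReal_ofReal (hm' k).le]
  -- mass of the perturbed cell
  have hmass : ∀ k, m' k = ∫ x in cell K y' ψ1 k, h x ∂ρ := by
    intro k
    have h1 : (rhoh K h).real (cell K y' ψ1 k) = m' k := by
      rw [measureReal_def, h1m k, ENNReal.toReal_ofReal (hm' k).le]
    have h2 := setIntegral_rhoh (K := K) hm hb (cell K y' ψ1 k) (hcm ψ1 k) (fun _ => (1:ℝ))
    simp only [integral_const, smul_eq_mul, mul_one,
      measureReal_restrict_apply MeasurableSet.univ, Set.univ_inter] at h2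
    rw [← h1, h2]
  have hconst : ∀ (c : ℝ) k, ∫ x in cell K y' ψ1 k, c ∂ρ = c * M1 k := by
    intro c k
    rw [integral_const, smul_eq_mul, mul_comm, measureReal_restrict_apply MeasurableSet.univ,
      Set.univ_inter]
  have hM1a : ∀ k, M1 k ≤ 2 * m' k := by
    intro k
    have : ∫ x in cell K y' ψ1 k, (1/2 : ℝ) ∂ρ ≤ ∫ x in cell K y' ψ1 k, h x ∂ρ :=
      integral_mono (integrable_const _) hih.integrableOn fun x => (hbd x).1
    rw [hconst, ← hmass] at this
    linarith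
  have hM1b : ∀ k, 0 < M1 k := by
    intro k
    have : ∫ x in cell K y' ψ1 k, h x ∂ρ ≤ ∫ x in cell K y' ψ1 k, (3/2 : ℝ) ∂ρ :=
      integral_mono hih.integrableOn (integrable_const _) fun x => (hbd x).2
    rw [hconst, ← hmass] at this
    have := hm' k
    linarith
  have hCS : ∀ k, a k ^ 2 ≤ M1 k * e k := fun k =>
    sq_setIntegral_abs_le ρ _ (fun x => h x - 1) hih1 hih2 (hM1b k)
  have ha0 : ∀ k, 0 ≤ a k := fun k => integral_nonneg fun x => abs_nonneg _
  have hdiff : ∀ k, |m' k - M1 k| ≤ a k := by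
    intro k
    have : m' k - M1 k = ∫ x in cell K y' ψ1 k, (h x - 1) ∂ρ := by
      rw [integral_sub hih.integrableOn (integrable_const _), hconst, ← hmass, one_mul]
    rw [this]
    exact abs_integral_le_integral_abs
  -- the vector part
  set P : κ → E d := fun k => (∫ x in cell K y' ψ0 k, x ∂ρ) - ∫ x in cell K y' ψ1 k, x ∂ρ with hP
  have hid : ∀ k, IntegrableOn (fun x : E d => x) (cell K y' ψ1 k) ρ := fun k =>
    (continuous_id.continuousOn.integrableOn_compact hK).mono_set (hcK ψ1 k)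
  have hidh : ∀ k, IntegrableOn (fun x : E d => (h x - 1) • x) (cell K y' ψ1 k) ρ := by
    intro k
    refine Integrable.mono' ((hid k).norm) ?_ ?_
    · exact ((hm.sub_const 1).smul measurable_id).aestronglyMeasurable
    · refine Filter.Eventually.of_forall fun x => ?_
      rw [norm_smul, Real.norm_eq_abs]
      have := hb x
      nlinarith [norm_nonneg x]
  have hβ : ∀ k, (∫ x in cell K y' ψ1 k, x ∂(rhoh K h)) - ∫ x in cell K y' ψ0 k, x ∂ρ =
      - P k + ∫ x in cell K y' ψ1 k, (h x - 1) • x ∂ρ := by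
    intro k
    rw [setIntegral_rhoh (K := K) hm hb (cell K y' ψ1 k) (hcm ψ1 k) (fun x => x)]
    have : ∫ x in cell K y' ψ1 k, h x • x ∂ρ = (∫ x in cell K y' ψ1 k, x ∂ρ) +
        ∫ x in cell K y' ψ1 k, (h x - 1) • x ∂ρ := by
      rw [← integral_add (hid k) (hidh k)]
      congr 1
      ext1 x
      rw [sub_smul, one_smul]
      abel
    rw [this]
    simp only [hP]
    abel
  have hnorm : ∀ k, ‖∫ x in cell K y' ψ1 k, (h x - 1) • x ∂ρ‖ ≤ R * a k := by
    intro k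
    refine (norm_integral_le_integral_norm _).trans ?_
    rw [← integral_const_mul]
    refine setIntegral_mono_on (hidh k).norm ((hih1.abs.integrableOn).const_mul R) (hcm ψ1 k) ?_
    intro x hx
    rw [norm_smul, Real.norm_eq_abs, mul_comm]
    exact mul_le_mul_of_nonneg_right (hR x (hcK ψ1 k hx)) (abs_nonneg _)
  have hterm : ∀ k, (m' k)⁻¹ * ‖(∫ x in cell K y' ψ1 k, x ∂(rhoh K h)) -
        ∫ x in cell K y' ψ0 k, x ∂ρ‖ ^ 2 ≤
      4 * (‖P k‖ ^ 2 / max (m' k) (M1 k)) + 4 * R ^ 2 * e k := by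
    intro k
    rw [hβ k]
    have h1 : ‖- P k + ∫ x in cell K y' ψ1 k, (h x - 1) • x ∂ρ‖ ≤ ‖P k‖ + R * a k := by
      refine (norm_add_le _ _).trans ?_
      rw [norm_neg]
      exact add_le_add le_rfl (hnorm k)
    have h2 : ‖- P k + ∫ x in cell K y' ψ1 k, (h x - 1) • x ∂ρ‖ ^ 2 ≤
        2 * ‖P k‖ ^ 2 + 2 * R ^ 2 * (M1 k * e k) := by
      have h3 : ‖- P k + ∫ x in cell K y' ψ1 k, (h x - 1) • x ∂ρ‖ ^ 2 ≤ (‖P k‖ + R * a k) ^ 2 :=
        pow_le_pow_left₀ (norm_nonneg _) h1 2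
      have h4 : (‖P k‖ + R * a k) ^ 2 ≤ 2 * ‖P k‖ ^ 2 + 2 * R ^ 2 * (a k ^ 2) := by
        nlinarith [sq_nonneg (‖P k‖ - R * a k)]
      have h5 : 2 * R ^ 2 * (a k ^ 2) ≤ 2 * R ^ 2 * (M1 k * e k) :=
        mul_le_mul_of_nonneg_left (hCS k) (by positivity)
      linarith
    have hmk := hm' k
    have hmax : 0 < max (m' k) (M1 k) := lt_max_of_lt_left hmk
    have hmax2 : max (m' k) (M1 k) ≤ 2 * m' k := max_le (by linarith) (hM1a k)
    have h6 : (m' k)⁻¹ * (2 * ‖P k‖ ^ 2) ≤ 4 * (‖P k‖ ^ 2 / max (m' k) (M1 k)) := by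
      rw [inv_mul_eq_div, ← mul_div_assoc, div_le_div_iff₀ hmk hmax]
      nlinarith [sq_nonneg ‖P k‖, mul_le_mul_of_nonneg_left hmax2 (sq_nonneg ‖P k‖)]
    have h7 : (m' k)⁻¹ * (2 * R ^ 2 * (M1 k * e k)) ≤ 4 * R ^ 2 * e k := by
      rw [inv_mul_eq_div, div_le_iff₀ hmk]
      have := mul_le_mul_of_nonneg_right (hM1a k) (mul_nonneg (sq_nonneg R) (he0 k))
      nlinarith
    calc (m' k)⁻¹ * ‖- P k + ∫ x in cell K y' ψ1 k, (h x - 1) • x ∂ρ‖ ^ 2 ≤
        (m' k)⁻¹ * (2 * ‖P k‖ ^ 2 + 2 * R ^ 2 * (M1 k * e k)) :=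
          mul_le_mul_of_nonneg_left h2 (inv_nonneg.2 hmk.le)
      _ = (m' k)⁻¹ * (2 * ‖P k‖ ^ 2) + (m' k)⁻¹ * (2 * R ^ 2 * (M1 k * e k)) := by ring
      _ ≤ _ := add_le_add h6 h7
  have hkey := hMB κ y' hy' ψ0 ψ1
  simp only [← hρdef, hM0] at hkey
  have hrhs : ∑ k, (m' k - M1 k) ^ 2 / max (m' k) (M1 k) ≤ ∑ k, e k := by
    apply Finset.sum_le_sum
    intro k _
    have hmax : 0 < max (m' k) (M1 k) := lt_max_of_lt_left (hm' k)
    rw [div_le_iff₀ hmax]
    have h1 : (m' k - M1 k) ^ 2 ≤ a k ^ 2 := by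
      rw [← sq_abs]
      exact pow_le_pow_left₀ (abs_nonneg _) (hdiff k) 2
    have h2 : M1 k * e k ≤ e k * max (m' k) (M1 k) := by
      rw [mul_comm]
      exact mul_le_mul_of_nonneg_left (le_max_right _ _) (he0 k)
    linarith [hCS k]
  calc ∑ k, (m' k)⁻¹ * ‖(∫ x in cell K y' ψ1 k, x ∂(rhoh K h)) -
        ∫ x in cell K y' ψ0 k, x ∂ρ‖ ^ 2 ≤
      ∑ k, (4 * (‖P k‖ ^ 2 / max (m' k) (M1 k)) + 4 * R ^ 2 * e k) :=
        Finset.sum_le_sum fun k _ => hterm k
    _ = 4 * ∑ k, ‖P k‖ ^ 2 / max (m' k) (M1 k) + 4 * R ^ 2 * ∑ k, e k := by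
        rw [Finset.sum_add_distrib, Finset.mul_sum, Finset.mul_sum]
    _ ≤ 4 * (C * ∑ k, e k) + 4 * R ^ 2 * ∑ k, e k := by
        have : ∑ k, ‖P k‖ ^ 2 / max (m' k) (M1 k) ≤ C * ∑ k, e k :=
          hkey.trans (mul_le_mul_of_nonneg_left hrhs hC)
        linarith
    _ = (4 * C + 4 * R ^ 2) * ∫ x, (h x - 1) ^ 2 ∂ρ := by
        rw [hsum]
        ring

omit [Nonempty ι] in
/-- Weighted Cauchy-Schwarz. -/
theorem sum_weighted_le (m A B : ι → ℝ) (hm : ∀ i, 0 ≤ m i) :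
    ∑ i, m i * (A i * B i) ≤ Real.sqrt (∑ i, m i * A i ^ 2) * Real.sqrt (∑ i, m i * B i ^ 2) := by
  have h := Finset.sum_mul_sq_le_sq_mul_sq Finset.univ (fun i => Real.sqrt (m i) * A i)
    (fun i => Real.sqrt (m i) * B i)
  have e1 : ∀ i, Real.sqrt (m i) * A i * (Real.sqrt (m i) * B i) = m i * (A i * B i) := by
    intro i
    have := Real.mul_self_sqrt (hm i)
    linear_combination (A i * B i) * this
  have e2 : ∀ i, (Real.sqrt (m i) * A i) ^ 2 = m i * A i ^ 2 := by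
    intro i
    rw [mul_pow, Real.sq_sqrt (hm i)]
  have e3 : ∀ i, (Real.sqrt (m i) * B i) ^ 2 = m i * B i ^ 2 := by
    intro i
    rw [mul_pow, Real.sq_sqrt (hm i)]
  simp only [e1, e2, e3] at h
  have hA : 0 ≤ ∑ i, m i * A i ^ 2 := Finset.sum_nonneg fun i _ => mul_nonneg (hm i) (sq_nonneg _)
  rw [← Real.sqrt_mul hA]
  exact Real.le_sqrt_of_sq_le h

/-- (X), from the key lemma. -/
theorem TT_cross_diff_le_of_momentBound {K : Set (E d)} (hK : IsCompact K)
    (hKi : (interior K).Nonempty) (R : ℝ) (hR : ∀ x ∈ K, ‖x‖ ≤ R) (C : ℝ) (hC : 0 ≤ C)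
    (hMB : MomentBound K C) (m : ι → ℝ) (hm : ∀ i, 0 < m i) (hm1 : ∑ i, m i = 1)
    (y z : ι → E d) (h : E d → ℝ) (hmeas : Measurable h) (hb : ∀ x, |h x - 1| ≤ 1 / 2)
    (h1 : ∫ x, h x ∂(uniformProbOn K) = 1) :
    TT (rhoh K h) m z - TT (rhoh K h) m y - (TT (uniformProbOn K) m z - TT (uniformProbOn K) m y) ≤
      Real.sqrt (4 * C + 4 * R ^ 2) * Real.sqrt (∫ x, (h x - 1) ^ 2 ∂(uniformProbOn K)) *
        Real.sqrt (∑ i, m i * ‖y i - z i‖ ^ 2) := by
  classical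
  have hprob0 := isProbabilityMeasure_uniformProbOn hK hKi
  have hprob1 := isProbabilityMeasure_rhoh hK hKi hmeas hb h1
  have hρ0 : uniformProbOn K ≪ volume := uniformProbOn_ac K
  have hρ1 : rhoh K h ≪ volume := rhoh_ac K h
  have hρK0 : uniformProbOn K Kᶜ = 0 := uniformProbOn_compl hK.isClosed.measurableSet
  have hρK1 : rhoh K h Kᶜ = 0 := rhoh_compl hK.isClosed.measurableSet h
  set D : ℝ := Real.sqrt (4 * C + 4 * R ^ 2) * Real.sqrt (∫ x, (h x - 1) ^ 2 ∂(uniformProbOn K)) *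
        Real.sqrt (∑ i, m i * ‖y i - z i‖ ^ 2) with hD
  have hex : ∀ s : ℝ, ∃ ab : ℝ × ℝ,
      (∀ t : ℝ, TT (rhoh K h) m (fun i => y i + s • (z i - y i)) + (t - s) * ab.1 ≤
        TT (rhoh K h) m (fun i => y i + t • (z i - y i))) ∧
      (∀ t : ℝ, TT (uniformProbOn K) m (fun i => y i + s • (z i - y i)) + (t - s) * ab.2 ≤
        TT (uniformProbOn K) m (fun i => y i + t • (z i - y i))) ∧ ab.1 - ab.2 ≤ D := by
    intro s
    set Y : ι → E d := fun i => y i + s • (z i - y i) with hY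
    let κ : Type := Set.range Y
    have : Finite κ := Set.finite_range Y
    let _ : Fintype κ := Fintype.ofFinite κ
    let g : ι → κ := fun i => ⟨Y i, i, rfl⟩
    have hg : Function.Surjective g := by
      rintro ⟨_, i, rfl⟩
      exact ⟨i, rfl⟩
    have : Nonempty κ := ⟨g (Classical.arbitrary ι)⟩
    let y' : κ → E d := Subtype.val
    have hy' : Function.Injective y' := Subtype.val_injective
    have hyg : ∀ i, y' (g i) = y i + s • (z i - y i) := fun i => rfl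
    let m' : κ → ℝ := fun k => ∑ i with g i = k, m i
    have hm'eq : ∀ k, m' k = ∑ i with g i = k, m i := fun k => rfl
    have hm'pos : ∀ k, 0 < m' k := by
      intro k
      obtain ⟨i, hi⟩ := hg k
      exact Finset.sum_pos (fun i _ => hm i) ⟨i, by simp [hi]⟩
    have hm'1 : ∑ k, m' k = 1 := by
      have := sum_fiber g m m' hm'eq (fun _ => 1)
      simpa [hm1] using this
    obtain ⟨ψ0, hψ0, hψ0m⟩ := exists_optimal_psi K hK (uniformProbOn K) hρ0 hρK0 m' hm'pos hm'1 y' hy'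
    obtain ⟨ψ1, hψ1, hψ1m⟩ := exists_optimal_psi K hK (rhoh K h) hρ1 hρK1 m' hm'pos hm'1 y' hy'
    have hmd := moment_diff hK hKi R hR C hC hMB h hmeas hb m' hm'pos y' hy' ψ0 ψ1 hψ0m hψ1m
    refine ⟨(∑ i, m i * ((m' (g i))⁻¹ * inner ℝ (∫ x in cell K y' ψ1 (g i), x ∂(rhoh K h)) (z i - y i)),
      ∑ i, m i * ((m' (g i))⁻¹ * inner ℝ (∫ x in cell K y' ψ0 (g i), x ∂(uniformProbOn K)) (z i - y i))),
      ?_, ?_, ?_⟩
    · intro t
      have := exists_subgrad hK (rhoh K h) hρ1 hρK1 g hg m hm hm1 m' hm'eq y' hy' ψ1 hψ1 hψ1m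
        (fun i => y i + t • (z i - y i))
      refine le_trans (le_of_eq ?_) this
      congr 1
      simp only
      rw [Finset.mul_sum]
      refine Finset.sum_congr rfl fun i _ => ?_
      have : y i + t • (z i - y i) - y' (g i) = (t - s) • (z i - y i) := by
        rw [hyg, sub_smul]
        abel
      rw [this, inner_smul_right]
      ring
    · intro t
      have := exists_subgrad hK (uniformProbOn K) hρ0 hρK0 g hg m hm hm1 m' hm'eq y' hy' ψ0 hψ0 hψ0m
        (fun i => y i + t • (z i - y i))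
      refine le_trans (le_of_eq ?_) this
      congr 1
      simp only
      rw [Finset.mul_sum]
      refine Finset.sum_congr rfl fun i _ => ?_
      have : y i + t • (z i - y i) - y' (g i) = (t - s) • (z i - y i) := by
        rw [hyg, sub_smul]
        abel
      rw [this, inner_smul_right]
      ring
    · simp only
      rw [← Finset.sum_sub_distrib]
      set β : κ → E d := fun k => (∫ x in cell K y' ψ1 k, x ∂(rhoh K h)) -
        ∫ x in cell K y' ψ0 k, x ∂(uniformProbOn K) with hβ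
      have e1 : ∀ i, m i * ((m' (g i))⁻¹ * inner ℝ (∫ x in cell K y' ψ1 (g i), x ∂(rhoh K h)) (z i - y i)) -
          m i * ((m' (g i))⁻¹ * inner ℝ (∫ x in cell K y' ψ0 (g i), x ∂(uniformProbOn K)) (z i - y i)) ≤
          m i * (((m' (g i))⁻¹ * ‖β (g i)‖) * ‖y i - z i‖) := by
        intro i
        rw [← mul_sub, ← mul_sub, ← inner_sub_left]
        refine mul_le_mul_of_nonneg_left ?_ (hm i).le
        rw [mul_assoc]
        refine mul_le_mul_of_nonneg_left ?_ (inv_nonneg.2 (hm'pos _).le)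
        rw [norm_sub_rev (y i) (z i)]
        exact real_inner_le_norm _ _
      refine (Finset.sum_le_sum fun i _ => e1 i).trans ?_
      refine (sum_weighted_le m (fun i => (m' (g i))⁻¹ * ‖β (g i)‖) (fun i => ‖y i - z i‖)
        (fun i => (hm i).le)).trans ?_
      rw [hD]
      refine mul_le_mul_of_nonneg_right ?_ (Real.sqrt_nonneg _)
      rw [← Real.sqrt_mul (by positivity)]
      apply Real.sqrt_le_sqrt
      refine le_trans (le_of_eq ?_) hmd
      rw [← sum_fiber g m m' hm'eq (fun k => ((m' k)⁻¹ * ‖β k‖) ^ 2)]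
      refine Finset.sum_congr rfl fun k _ => ?_
      have := (hm'pos k).ne'
      field_simp
      rfl
  choose ab hab1 hab0 habD using hex
  have htel := telescoping (fun s => TT (rhoh K h) m (fun i => y i + s • (z i - y i)))
    (fun s => TT (uniformProbOn K) m (fun i => y i + s • (z i - y i)))
    (fun s => (ab s).1) (fun s => (ab s).2) D (fun s _ t _ => hab1 s t) (fun s _ t _ => hab0 s t)
    (fun s _ => habD s)
  simp only [one_smul, zero_smul, add_zero, add_sub_cancel] at htel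
  exact htel

end Crest.Agent.R082
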