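import Crest.Agent.R082.ShiftFinal
import Mathlib
import Crest.Agent.R082.Key2
import Crest.Agent.R082.Defs
import Crest.Agent.R082.SemiDisc
import Crest.Agent.R082.Unif
import Crest.Agent.R082.Cross
import Crest.Agent.R082.Gap

-- ▼ part R082/ShiftStar
section

/-!
Row 82: the shift inequality (part F2), assembling.
-/

set_option autoImplicit false

open MeasureTheory Filter
open scoped ENNReal NNReal Topology
open Crest.AnalysisR.OT

namespace Crest.Agent.R082.Sh

variable {d : ℕ}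

section Star

variable {K Y : Set (E d)} {h : E d} {p : E d → ℝ} {M R C : ℝ}
variable {π : Measure (E d × E d)} {μ ν : Measure (E d)} {Tμ Tν : E d → E d}

lemma quadCost_toReal (π : Measure (E d × E d)) :
    (quadCost π).toReal = ∫ w, ‖w.1 - w.2‖ ^ 2 ∂π := by
  rw [integral_eq_lintegral_of_nonneg_ae (Eventually.of_forall fun w => by positivity)
    (by fun_prop)]
  unfold quadCost
  congr 1
  refine lintegral_congr fun w => ?_
  rw [ENNReal.ofReal_pow (norm_nonneg _), ofReal_norm]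

lemma sum_cost_le [IsProbabilityMeasure π] (hYc : IsCompact Y) (hYR : ∀ x ∈ Y, ‖x‖ ≤ R)
    (hY : ∀ᵐ w ∂π, w.1 ∈ Y ∧ w.2 ∈ Y) (τ : SimpleFunc (E d) (E d)) {δ : ℝ} (hδ : 0 ≤ δ)
    (hτ : ∀ w ∈ Y, ‖w - τ w‖ ≤ δ) :
    ∑ q : pairs Y τ π, π.real (pc Y τ q.1) * ‖q.1.2 - q.1.1‖ ^ 2 ≤
      (quadCost π).toReal + 8 * R * δ + 4 * δ ^ 2 := by
  rw [sum_pairs hYc hY τ (fun q => ‖q.2 - q.1‖ ^ 2), quadCost_toReal]
  have hb : ∀ᵐ w ∂π, ‖(‖w.1 - w.2‖ ^ 2 : ℝ)‖ ≤ (2 * R) ^ 2 := by
    filter_upwards [hY] with w hw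
    have h1 : ‖w.1 - w.2‖ ≤ 2 * R := (norm_sub_le _ _).trans (by linarith [hYR _ hw.1, hYR _ hw.2])
    rw [Real.norm_eq_abs, abs_of_nonneg (by positivity)]
    exact pow_le_pow_left₀ (norm_nonneg _) h1 2
  have i1 : Integrable (fun w : E d × E d => ‖w.1 - w.2‖ ^ 2) π :=
    Integrable.of_bound (by fun_prop) _ hb
  have i2 : Integrable (fun w : E d × E d => ‖w.1 - w.2‖ ^ 2 + (8 * R * δ + 4 * δ ^ 2)) π :=
    i1.add (integrable_const _)
  have e : ∫ w : E d × E d, (‖w.1 - w.2‖ ^ 2 + (8 * R * δ + 4 * δ ^ 2)) ∂π =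
      ∫ w, ‖w.1 - w.2‖ ^ 2 ∂π + 8 * R * δ + 4 * δ ^ 2 := by
    rw [integral_add i1 (integrable_const _), integral_const]
    simp
    ring
  rw [← e]
  apply integral_mono_of_nonneg (Eventually.of_forall fun w => by positivity) i2
  filter_upwards [hY] with w hw
  have h1 : ‖w.1 - w.2‖ ≤ 2 * R := (norm_sub_le _ _).trans (by linarith [hYR _ hw.1, hYR _ hw.2])
  have h2 : ‖τ w.2 - τ w.1‖ ≤ ‖w.1 - w.2‖ + 2 * δ := by
    have : τ w.2 - τ w.1 = (w.1 - τ w.1) - (w.2 - τ w.2) - (w.1 - w.2) := by abel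
    rw [this]
    refine (norm_sub_le _ _).trans ?_
    have := (norm_sub_le (w.1 - τ w.1) (w.2 - τ w.2))
    linarith [hτ _ hw.1, hτ _ hw.2]
  have h3 : ‖τ w.2 - τ w.1‖ ^ 2 ≤ (‖w.1 - w.2‖ + 2 * δ) ^ 2 :=
    pow_le_pow_left₀ (norm_nonneg _) h2 2
  have h4 := mul_le_mul_of_nonneg_right h1 hδ
  nlinarith

/-- The inequality at level `δ`. -/
lemma star (hKc : IsCompact K) (hKi : (interior K).Nonempty) (hYc : IsCompact Y)
    (hYR : ∀ x ∈ Y, ‖x‖ ≤ R) (hX : XStmt K C) (hC : 0 ≤ C)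
    (hμ : IsProbabilityOn Y μ) (hν : IsProbabilityOn Y ν)
    (hTμ : Measurable Tμ) (hTmμ : (uniformProbOn K).map Tμ = μ)
    (hTν : Measurable Tν) (hTmν : (uniformProbOn K).map Tν = ν)
    (hgμ : GapStmt K R μ Tμ) (hgν : GapStmt K R ν Tν)
    (hπ : IsPairCoupling μ ν π) (hp : Bump K h p M) {ε : ℝ} (hε : 0 ≤ ε) (hεM : ε * M ≤ 1 / 2)
    (τ : SimpleFunc (E d) (E d)) {δ : ℝ} (hδ : 0 ≤ δ) (hτ : ∀ w ∈ Y, ‖w - τ w‖ ≤ δ) :
    ε * (∫ x, p x * inner ℝ h (τ (Tμ x)) ∂(uniformProbOn K) -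
        ∫ x, p x * inner ℝ h (τ (Tν (x + h))) ∂(uniformProbOn K)) -
        (2 + ε * M) * (2 * R * δ) ≤
      C * (ε * Real.sqrt (∫ x, (p (x - h) - p x) ^ 2 ∂(uniformProbOn K))) *
        Real.sqrt ((quadCost π).toReal + 8 * R * δ + 4 * δ ^ 2) := by
  classical
  have hπP : IsProbabilityMeasure π := isProb_pi hμ hπ
  have hY := ae_mem_pi hμ hν hπ
  have hne : Nonempty (pairs Y τ π) := by
    obtain ⟨w, hw⟩ := (ae_pairs hY τ).exists
    exact ⟨⟨_, hw.2⟩⟩
  obtain ⟨Ψ1, φ1, hφ1, hΨ1, hη1⟩ := pkg hKc hKi hYc hμ hTμ hTmμ hgμ τ hδ hτ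
  obtain ⟨Ψ2, φ2, hφ2, hΨ2, hη2⟩ := pkg hKc hKi hYc hν hTν hTmν hgν τ hδ hτ
  have a1 := TT_upper0 hKc hKi hYc hY τ isProj_fst hπ.1 hμ hTμ hTmμ hp hφ1 hΨ1 hη1
  have a2 := TT_upper hKc hKi hYc hY τ isProj_snd hπ.2 hν hTν hTmν hp hε hεM hφ2 hΨ2 hη2
  have a3 : ∫ x, inner ℝ x (τ (Tν x)) ∂(uniformProbOn K) ≤
      TT (uniformProbOn K) (fun q : pairs Y τ π => π.real (pc Y τ q.1)) (fun q => q.1.2) := by
    unfold TT
    exact le_ciInf fun ψ => TT_lower0 hKc hKi hYc hY τ isProj_snd hπ.2 hν hTν hTmν hp ψ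
  have a4 : ∫ x, inner ℝ x (τ (Tμ x)) ∂(uniformProbOn K) +
        ε * ∫ x, p x * inner ℝ h (τ (Tμ x)) ∂(uniformProbOn K) ≤
      TT (rhoh K (hfun ε p h)) (fun q : pairs Y τ π => π.real (pc Y τ q.1))
        (fun q => q.1.1) := by
    unfold TT
    exact le_ciInf fun ψ => TT_lower hKc hKi hYc hY τ isProj_fst hπ.1 hμ hTμ hTmμ hp hε hεM ψ
  have hm1 : ∑ q : pairs Y τ π, π.real (pc Y τ q.1) = 1 := by
    have := sum_pairs hYc hY τ (fun _ => (1 : ℝ))
    simpa using this
  have x1 := hX (pairs Y τ π) (fun q => π.real (pc Y τ q.1)) (fun q => (mem_pairs.1 q.2).2) hm1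
    (fun q => q.1.2) (fun q => q.1.1)
    (by
      intro i j hij hcon
      apply hij
      apply Subtype.ext
      rw [Prod.mk.injEq] at hcon
      exact Prod.ext hcon.2 hcon.1)
    (hfun ε p h) (measurable_hfun hp ε) (hfun_abs hp hε hεM) (integral_hfun_one hKc hKi hp)
  have e1 : Real.sqrt (∫ x, (hfun ε p h x - 1) ^ 2 ∂(uniformProbOn K)) =
      ε * Real.sqrt (∫ x, (p (x - h) - p x) ^ 2 ∂(uniformProbOn K)) := by
    have : ∫ x, (hfun ε p h x - 1) ^ 2 ∂(uniformProbOn K) =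
        ε ^ 2 * ∫ x, (p (x - h) - p x) ^ 2 ∂(uniformProbOn K) := by
      rw [← integral_const_mul]
      congr 1
      ext x
      unfold hfun
      ring
    rw [this, Real.sqrt_mul (by positivity), Real.sqrt_sq hε]
  rw [e1] at x1
  have e2 := Real.sqrt_le_sqrt (sum_cost_le hYc hYR hY τ hδ hτ)
  have x2 := x1.trans (mul_le_mul_of_nonneg_left e2 (by positivity))
  nlinarith

lemma integrable_p_inner (hKc : IsCompact K) (hKi : (interior K).Nonempty)
    (hYR : ∀ x ∈ Y, ‖x‖ ≤ R)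
    (hp : Bump K h p M) {S : E d → E d} (hS : Measurable S)
    (hSY : ∀ᵐ x ∂(uniformProbOn K), p x ≠ 0 → S x ∈ Y) (hR : 0 ≤ R) :
    Integrable (fun x => p x * inner ℝ h (S x)) (uniformProbOn K) := by
  have hρ := isProb_unif hKc hKi
  have hpm := hp.meas
  have hM := hp.M_nonneg
  have hm : Measurable fun x => p x * inner ℝ h (S x) := hpm.mul (measurable_const.inner hS)
  refine Integrable.of_bound hm.aestronglyMeasurable (M * (‖h‖ * R)) ?_
  filter_upwards [hSY] with x hx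
  by_cases h0 : p x = 0
  · rw [h0, zero_mul, norm_zero]
    positivity
  · rw [Real.norm_eq_abs, abs_mul, abs_of_nonneg (hp.nonneg x)]
    exact mul_le_mul (hp.le x) ((abs_real_inner_le_norm _ _).trans
      (mul_le_mul_of_nonneg_left (hYR _ (hx h0)) (norm_nonneg _))) (abs_nonneg _) hM

lemma err_bound (hKc : IsCompact K) (hKi : (interior K).Nonempty) (hYR : ∀ x ∈ Y, ‖x‖ ≤ R)
    (hp : Bump K h p M) {S : E d → E d} (hS : Measurable S)
    (hSY : ∀ᵐ x ∂(uniformProbOn K), p x ≠ 0 → S x ∈ Y) (hR : 0 ≤ R)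
    (τ : SimpleFunc (E d) (E d)) {δ : ℝ} (hδ : 0 ≤ δ) (hτ : ∀ w ∈ Y, ‖w - τ w‖ ≤ δ) :
    |∫ x, p x * inner ℝ h (τ (S x)) ∂(uniformProbOn K) -
      ∫ x, p x * inner ℝ h (S x) ∂(uniformProbOn K)| ≤ M * (‖h‖ * δ) := by
  have hρ := isProb_unif hKc hKi
  have hpm := hp.meas
  have hM := hp.M_nonneg
  have i1 := integrable_p_inner hKc hKi hYR hp hS hSY hR
  obtain ⟨C4, hC4⟩ := bdd_inner_comp' τ S h
  have i2 : Integrable (fun x => p x * inner ℝ h (τ (S x))) (uniformProbOn K) :=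
    integrable_bump_mul hKc hKi hp (meas_inner_comp' τ hS h) (fun x _ => hC4 x)
  rw [← integral_sub i2 i1, ← Real.norm_eq_abs]
  have h1 : ∀ᵐ x ∂(uniformProbOn K),
      ‖p x * inner ℝ h (τ (S x)) - p x * inner ℝ h (S x)‖ ≤ M * (‖h‖ * δ) := by
    filter_upwards [hSY] with x hx
    by_cases h0 : p x = 0
    · rw [h0, zero_mul, zero_mul, sub_zero, norm_zero]
      positivity
    · rw [← mul_sub, ← inner_sub_right, Real.norm_eq_abs, abs_mul, abs_of_nonneg (hp.nonneg x)]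
      refine mul_le_mul (hp.le x) ((abs_real_inner_le_norm _ _).trans
        (mul_le_mul_of_nonneg_left ?_ (norm_nonneg _))) (abs_nonneg _) hM
      rw [norm_sub_rev]
      exact hτ _ (hx h0)
  have := norm_integral_le_of_norm_le_const h1
  simpa using this

/-- The shift inequality, from the gap statements and the cross difference bound. -/
theorem shift_ineq_of (hKc : IsCompact K) (hKi : (interior K).Nonempty) (hYc : IsCompact Y)
    (hYn : Y.Nonempty)
    (hYR : ∀ x ∈ Y, ‖x‖ ≤ R) (hX : XStmt K C) (hC : 0 ≤ C)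
    (hμ : IsProbabilityOn Y μ) (hν : IsProbabilityOn Y ν)
    (hTμ : Measurable Tμ) (hTmμ : (uniformProbOn K).map Tμ = μ)
    (hTν : Measurable Tν) (hTmν : (uniformProbOn K).map Tν = ν)
    (hgμ : GapStmt K R μ Tμ) (hgν : GapStmt K R ν Tν)
    (hπ : IsPairCoupling μ ν π) (hp : Bump K h p M) :
    ∫ x, p x * inner ℝ h (Tμ x - Tν (x + h)) ∂(uniformProbOn K) ≤
        C * Real.sqrt (∫ x, (p (x - h) - p x) ^ 2 ∂(uniformProbOn K)) *
          Real.sqrt (quadCost π).toReal := by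
  have hρ := isProb_unif hKc hKi
  have hM := hp.M_nonneg
  have hR : 0 ≤ R := by
    obtain ⟨y, hy⟩ := hYn
    exact (norm_nonneg _).trans (hYR y hy)
  have hS1 : ∀ᵐ x ∂(uniformProbOn K), p x ≠ 0 → Tμ x ∈ Y :=
    (ae_T_mem hμ hTμ hTmμ).mono fun x hx _ => hx
  have hS2 : ∀ᵐ x ∂(uniformProbOn K), p x ≠ 0 → Tν (x + h) ∈ Y := by
    have hpc' := (ae_unif_iff hKc (P := fun x => x + h ∈ K → Tν (x + h) ∈ Y)).2
      ((ae_unif_shift hKc (P := fun x => Tν x ∈ Y) h (ae_T_mem hν hTν hTmν)).mono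
        fun x hx _ => hx)
    filter_upwards [hpc'] with x hx h0
    exact hx (hp.supp x h0).2
  have hTν' : Measurable fun x => Tν (x + h) := hTν.comp (measurable_add_const h)
  have i1 := integrable_p_inner hKc hKi hYR hp hTμ hS1 hR
  have i2 := integrable_p_inner hKc hKi hYR hp hTν' hS2 hR
  set P := ∫ x, p x * inner ℝ h (Tμ x) ∂(uniformProbOn K) with hP
  set Q := ∫ x, p x * inner ℝ h (Tν (x + h)) ∂(uniformProbOn K) with hQ
  set V := Real.sqrt (∫ x, (p (x - h) - p x) ^ 2 ∂(uniformProbOn K)) with hV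
  set D := (quadCost π).toReal with hD
  have e0 : ∫ x, p x * inner ℝ h (Tμ x - Tν (x + h)) ∂(uniformProbOn K) = P - Q := by
    rw [hP, hQ, ← integral_sub i1 i2]
    refine integral_congr_ae (Eventually.of_forall fun x => ?_)
    simp only [inner_sub_right, mul_sub]
  rw [e0]
  -- choice of `ε`
  set ε : ℝ := 1 / (2 * M + 2) with hεd
  have hε : 0 < ε := by positivity
  have hεM : ε * M ≤ 1 / 2 := by
    rw [hεd, div_mul_eq_mul_div, one_mul, div_le_div_iff₀ (by positivity) (by norm_num)]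
    linarith
  set G : ℝ → ℝ := fun δ => C * (ε * V) * Real.sqrt (D + 8 * R * δ + 4 * δ ^ 2) +
    (2 + ε * M) * (2 * R * δ) + ε * (2 * (M * (‖h‖ * δ))) with hG
  have hGc : Continuous G := by
    rw [hG]
    fun_prop
  have hstar : ∀ δ : ℝ, 0 < δ → ε * (P - Q) ≤ G δ := by
    intro δ hδ
    obtain ⟨τ, hτ⟩ := exists_simple hYc hYn hδ
    have s1 := star hKc hKi hYc hYR hX hC hμ hν hTμ hTmμ hTν hTmν hgμ hgν hπ hp hε.le hεM τ hδ.le hτ
    have s2 := err_bound hKc hKi hYR hp hTμ hS1 hR τ hδ.le hτ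
    have s3 := err_bound hKc hKi hYR hp hTν' hS2 hR τ hδ.le hτ
    rw [← hP] at s2
    rw [← hQ] at s3
    have s4 := (abs_le.1 s2).1
    have s5 := (abs_le.1 s3).2
    have s6 : P - Q ≤ (∫ x, p x * inner ℝ h (τ (Tμ x)) ∂(uniformProbOn K) -
        ∫ x, p x * inner ℝ h (τ (Tν (x + h))) ∂(uniformProbOn K)) + 2 * (M * (‖h‖ * δ)) := by
      linarith
    have s7 := mul_le_mul_of_nonneg_left s6 hε.le
    rw [hG]
    simp only
    linarith
  have hlim : Tendsto G (𝓝[>] 0) (𝓝 (G 0)) := hGc.continuousWithinAt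
  have hfin : ε * (P - Q) ≤ G 0 :=
    ge_of_tendsto hlim (eventually_mem_nhdsWithin.mono fun δ hδ => hstar δ hδ)
  have hG0 : G 0 = ε * (C * V * Real.sqrt D) := by
    rw [hG]
    simp
    ring
  rw [hG0] at hfin
  exact le_of_mul_le_mul_left hfin hε

end Star

end Crest.Agent.R082.Sh
end

-- ▼ part R082/Key3
section

/-!
# Key lemma for S0109, part 3: the key stability inequality
-/

set_option autoImplicit false
set_option linter.unusedSectionVars false

open MeasureTheory Set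
open scoped ENNReal RealInnerProductSpace Function

namespace Crest.Agent.R082.Key

open Crest.Agent.Lib.PrekopaLeindler

variable {E : Type*} [NormedAddCommGroup E] [InnerProductSpace ℝ E] [MeasurableSpace E]
  [BorelSpace E] {ι : Type*} [Fintype ι]

lemma iUnion_cell [Nonempty ι] (y : ι → E) (ψ : ι → ℝ) : ⋃ i, cell y ψ i = univ := by
  ext x
  simp only [mem_iUnion, mem_univ, iff_true]
  obtain ⟨i, hi⟩ := Finite.exists_max fun i => ⟪x, y i⟫ - ψ i
  exact ⟨i, hi⟩

lemma sum_integral_cell [Nonempty ι] {ρ : Measure E} (y : ι → E) (ψ : ι → ℝ)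
    (hnull : ∀ i j, i ≠ j → ρ (cell y ψ i ∩ cell y ψ j) = 0) {f : E → ℝ} (hf : Integrable f ρ) :
    ∑ i, ∫ x in cell y ψ i, f x ∂ρ = ∫ x, f x ∂ρ := by
  have h1 := integral_iUnion_ae (μ := ρ) (f := f) (s := cell y ψ)
    (fun i => (isClosed_cell y ψ i).measurableSet.nullMeasurableSet)
    (fun i j hij => hnull i j hij) (by rw [iUnion_cell]; exact hf.integrableOn)
  rw [iUnion_cell, Measure.restrict_univ, tsum_fintype] at h1
  exact h1.symm

/-- one-index inequality for masses -/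
lemma mass_index {a b m n : ℝ} (ha : 0 ≤ a) (hb : 0 ≤ b) (ham : a ≤ m) (hbn : b ≤ n)
    (ha0 : a = 0 → m = 0) (hb0 : b = 0 → n = 0) :
    (√a - √b) ^ 2 ≤ 2 * (√m - √n) ^ 2 + 1 / 2 * (√a * √b * (m / a - n / b) ^ 2) := by
  rcases ha.eq_or_lt with h | hapos
  · have h0 := ha0 h.symm
    rw [← h, h0]
    have := Real.sq_sqrt hb
    have := Real.sq_sqrt (hb.trans hbn)
    simp only [Real.sqrt_zero, zero_sub, neg_sq, zero_mul, mul_zero, add_zero]
    nlinarith
  rcases hb.eq_or_lt with h | hbpos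
  · have h0 := hb0 h.symm
    rw [← h, h0]
    have := Real.sq_sqrt ha
    have := Real.sq_sqrt (ha.trans ham)
    simp only [Real.sqrt_zero, sub_zero, zero_mul, mul_zero, add_zero]
    nlinarith
  have h := sqrt_diff_le ha hb (P := m / a) (Q := n / b) ((one_le_div hapos).2 ham)
    ((one_le_div hbpos).2 hbn)
  rwa [mul_div_cancel₀ _ hapos.ne', mul_div_cancel₀ _ hbpos.ne'] at h

/-- Summed Prekopa–Leindler inequality. -/
theorem sum_ineq [Nonempty ι] {ρ : Measure E} [IsFiniteMeasure ρ] (hPL : PL E ρ) {R : ℝ}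
    (hR : ∀ᵐ x ∂ρ, x ∈ Metric.closedBall (0:E) R) (y : ι → E) (ψ0 ψ1 : ι → ℝ)
    (hnull : ∀ ψ : ι → ℝ, ∀ i j, i ≠ j → ρ (cell y ψ i ∩ cell y ψ j) = 0)
    {lam : ℝ} (hlam : 0 < lam) {L : ℝ} (hL : 0 < L) (l : ι → E → ℝ) (hl : ∀ i, Measurable (l i))
    {M : ℝ} (hM : ∀ i, ∀ x ∈ Metric.closedBall (0:E) R, |l i x| ≤ M)
    (hlip : ∀ i, ∀ x ∈ Metric.closedBall (0:E) R, ∀ z ∈ Metric.closedBall (0:E) R,
      |l i x - l i z| ≤ L * ‖x - z‖) :
    ∑ i, √(∫ x in cell y ψ0 i, gw lam x ∂ρ) * √(∫ x in cell y ψ1 i, gw lam x ∂ρ) *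
      ((∫ x in cell y ψ0 i, gw lam x * l i x ∂ρ) / (∫ x in cell y ψ0 i, gw lam x ∂ρ) -
        (∫ x in cell y ψ1 i, gw lam x * l i x ∂ρ) / (∫ x in cell y ψ1 i, gw lam x ∂ρ)) ^ 2 ≤
    4 * L ^ 2 / lam * ∑ i, (√(∫ x in cell y ψ0 i, gw lam x ∂ρ) -
        √(∫ x in cell y ψ1 i, gw lam x ∂ρ)) ^ 2 := by
  set B := Metric.closedBall (0:E) R with hB
  set a : ι → ℝ := fun i => ∫ x in cell y ψ0 i, gw lam x ∂ρ with ha
  set b : ι → ℝ := fun i => ∫ x in cell y ψ1 i, gw lam x ∂ρ with hb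
  set c : ι → ℝ := fun i => ∫ x in cell y (fun j => (ψ0 j + ψ1 j) / 2) i, gw lam x ∂ρ with hc
  have ha0 : ∀ i, 0 ≤ a i := fun i => integral_nonneg fun x => (gw_pos lam x).le
  have hb0 : ∀ i, 0 ≤ b i := fun i => integral_nonneg fun x => (gw_pos lam x).le
  have hBm : MeasurableSet B := Metric.isClosed_closedBall.measurableSet
  have hae : ∀ S : Set E, (S ∩ B : Set E) =ᵐ[ρ] S := by
    intro S
    filter_upwards [hR] with x hx
    apply propext
    exact ⟨fun h => h.1, fun h => ⟨h, hx⟩⟩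
  have hcongr : ∀ (S : Set E) (f : E → ℝ), ∫ x in S ∩ B, f x ∂ρ = ∫ x in S, f x ∂ρ :=
    fun S _ => setIntegral_congr_set (hae S)
  have hgi : Integrable (gw lam : E → ℝ) ρ := by
    have := integrable_of_bdd (ρ := ρ) (measurable_gw (E := E) lam) MeasurableSet.univ (M := 1)
      (fun x _ => by rw [abs_of_pos (gw_pos lam x)]; exact gw_le_one hlam.le x)
    rwa [integrableOn_univ] at this
  have hpair : ∀ i, √(a i) * √(b i) * (1 + lam / 8 * (((∫ x in cell y ψ0 i, gw lam x * l i x ∂ρ) / a i -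
        (∫ x in cell y ψ1 i, gw lam x * l i x ∂ρ) / b i) / L) ^ 2) ≤ c i := by
    intro i
    have h := pair_ineq (ρ := ρ) hPL (A := cell y ψ0 i ∩ B) (B := cell y ψ1 i ∩ B)
      (C := cell y (fun j => (ψ0 j + ψ1 j) / 2) i ∩ B)
      ((isClosed_cell y ψ0 i).measurableSet.inter hBm)
      ((isClosed_cell y ψ1 i).measurableSet.inter hBm)
      ((isClosed_cell y _ i).measurableSet.inter hBm)
      (fun p hp q hq => ⟨mid_mem_cell hp.1 hq.1,
        (convex_closedBall (0:E) R) hp.2 hq.2 (by norm_num) (by norm_num) (by norm_num)⟩)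
      hlam.le (l := fun x => l i x / L) ((hl i).div_const L) (M := M / L)
      (fun x hx => by
        rw [abs_div, abs_of_pos hL]; exact div_le_div_of_nonneg_right (hM i x hx.2) hL.le)
      (fun x hx => by
        rw [abs_div, abs_of_pos hL]; exact div_le_div_of_nonneg_right (hM i x hx.2) hL.le)
      (fun p hp q hq => by
        rw [← sub_div, abs_div, abs_of_pos hL, div_le_iff₀ hL, mul_comm]
        exact hlip i p hp.2 q hq.2)
    simp only [hcongr] at h
    have e : ∀ S : Set E, ∫ x in S, gw lam x * (l i x / L) ∂ρ =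
        (∫ x in S, gw lam x * l i x ∂ρ) / L := by
      intro S
      rw [← integral_div]; congr 1; ext x; ring
    rw [e, e] at h
    refine le_trans ?_ h
    refine mul_le_mul_of_nonneg_left ?_ (by positivity)
    have h1 := Real.add_one_le_exp (lam / 8 * (((∫ x in cell y ψ0 i, gw lam x * l i x ∂ρ) / a i -
        (∫ x in cell y ψ1 i, gw lam x * l i x ∂ρ) / b i) / L) ^ 2)
    have h2 : ((∫ x in cell y ψ0 i, gw lam x * l i x ∂ρ) / a i -
        (∫ x in cell y ψ1 i, gw lam x * l i x ∂ρ) / b i) / L =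
        (∫ x in cell y ψ0 i, gw lam x * l i x ∂ρ) / L / a i -
        (∫ x in cell y ψ1 i, gw lam x * l i x ∂ρ) / L / b i := by
      rw [sub_div, div_right_comm, div_right_comm (∫ x in cell y ψ1 i, gw lam x * l i x ∂ρ)]
    rw [h2] at h1
    rw [h2]
    linarith
  have hsuma : ∑ i, a i = ∫ x, gw lam x ∂ρ := sum_integral_cell y ψ0 (hnull ψ0) hgi
  have hsumb : ∑ i, b i = ∫ x, gw lam x ∂ρ := sum_integral_cell y ψ1 (hnull ψ1) hgi
  have hsumc : ∑ i, c i = ∫ x, gw lam x ∂ρ := sum_integral_cell y _ (hnull _) hgi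
  have hsum : ∑ i, √(a i) * √(b i) * (1 + lam / 8 * (((∫ x in cell y ψ0 i, gw lam x * l i x ∂ρ) / a i -
        (∫ x in cell y ψ1 i, gw lam x * l i x ∂ρ) / b i) / L) ^ 2) ≤ ∑ i, c i :=
    Finset.sum_le_sum fun i _ => hpair i
  have hS : ∑ i, (√(a i) - √(b i)) ^ 2 = ∑ i, a i + ∑ i, b i - 2 * ∑ i, √(a i) * √(b i) := by
    rw [Finset.mul_sum, ← Finset.sum_add_distrib, ← Finset.sum_sub_distrib]
    refine Finset.sum_congr rfl fun i _ => ?_
    have h1 := Real.sq_sqrt (ha0 i)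
    have h2 := Real.sq_sqrt (hb0 i)
    nlinarith
  have hexp : ∑ i, √(a i) * √(b i) * (1 + lam / 8 * (((∫ x in cell y ψ0 i, gw lam x * l i x ∂ρ) / a i -
        (∫ x in cell y ψ1 i, gw lam x * l i x ∂ρ) / b i) / L) ^ 2) =
      ∑ i, √(a i) * √(b i) + lam / (8 * L ^ 2) * ∑ i, √(a i) * √(b i) *
        ((∫ x in cell y ψ0 i, gw lam x * l i x ∂ρ) / a i -
        (∫ x in cell y ψ1 i, gw lam x * l i x ∂ρ) / b i) ^ 2 := by
    rw [Finset.mul_sum, ← Finset.sum_add_distrib]
    refine Finset.sum_congr rfl fun i _ => ?_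
    field_simp
  rw [hexp, hsumc] at hsum
  rw [hS, hsuma, hsumb]
  set T := ∑ i, √(a i) * √(b i) * ((∫ x in cell y ψ0 i, gw lam x * l i x ∂ρ) / a i -
        (∫ x in cell y ψ1 i, gw lam x * l i x ∂ρ) / b i) ^ 2 with hT
  have hfin : T = 8 * L ^ 2 / lam * (lam / (8 * L ^ 2) * T) := by field_simp
  rw [hfin]
  have hpos : 0 < 8 * L ^ 2 / lam := by positivity
  calc 8 * L ^ 2 / lam * (lam / (8 * L ^ 2) * T)
      ≤ 8 * L ^ 2 / lam * (∫ x, gw lam x ∂ρ - ∑ i, √(a i) * √(b i)) :=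
        mul_le_mul_of_nonneg_left (by linarith) hpos.le
    _ = _ := by ring

/-- Inverse weight. -/
lemma exp_bound18 : Real.exp (1/8) ≤ 1.14 := by
  have h : Real.exp (1/8) ^ 8 = Real.exp 1 := by
    rw [← Real.exp_nat_mul]; norm_num
  by_contra hcon
  push Not at hcon
  have h1 : (1.14:ℝ) ^ 8 < Real.exp (1/8) ^ 8 := pow_lt_pow_left₀ hcon (by norm_num) (by norm_num)
  rw [h] at h1
  have := Real.exp_one_lt_d9
  norm_num at h1
  linarith

/-- inverse of the Gaussian weight -/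
noncomputable def gi (lam : ℝ) (x : E) : ℝ := Real.exp ((lam / 2) * ‖x‖ ^ 2)

lemma gw_mul_gi (lam : ℝ) (x : E) : gw lam x * gi lam x = 1 := by
  unfold gw gi
  rw [← Real.exp_add]; simp

lemma measurable_gi (lam : ℝ) : Measurable (gi lam : E → ℝ) := by
  unfold gi; fun_prop

lemma gi_le {lam R : ℝ} (hlam : 0 ≤ lam) (hR : 0 ≤ R) {x : E} (hx : ‖x‖ ≤ R) :
    gi lam x ≤ Real.exp (lam / 2 * R ^ 2) := by
  unfold gi
  apply Real.exp_le_exp.2
  have := pow_le_pow_left₀ (norm_nonneg x) hx 2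
  nlinarith

lemma gi_pos (lam : ℝ) (x : E) : 0 < gi lam x := Real.exp_pos _

lemma gi_lip {lam R : ℝ} (hlam : 0 ≤ lam) (hR : 0 ≤ R) {x z : E} (hx : ‖x‖ ≤ R) (hz : ‖z‖ ≤ R) :
    |gi lam x - gi lam z| ≤ Real.exp (lam / 2 * R ^ 2) * (lam * R) * ‖x - z‖ := by
  -- wlog gi z ≤ gi x
  have main : ∀ x z : E, ‖x‖ ≤ R → ‖z‖ ≤ R →
      gi lam x - gi lam z ≤ Real.exp (lam / 2 * R ^ 2) * (lam * R) * ‖x - z‖ := by
    intro x z hx hz
    have h1 : gi lam x - gi lam z ≤ gi lam x * ((lam / 2) * ‖x‖ ^ 2 - (lam / 2) * ‖z‖ ^ 2) := by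
      have h2 : gi lam z = gi lam x * Real.exp ((lam / 2) * ‖z‖ ^ 2 - (lam / 2) * ‖x‖ ^ 2) := by
        unfold gi; rw [← Real.exp_add]; ring_nf
      rw [h2]
      have h3 := Real.add_one_le_exp ((lam / 2) * ‖z‖ ^ 2 - (lam / 2) * ‖x‖ ^ 2)
      have h4 := mul_le_mul_of_nonneg_left h3 (gi_pos lam x).le
      nlinarith
    have h5 : (lam / 2) * ‖x‖ ^ 2 - (lam / 2) * ‖z‖ ^ 2 ≤ lam * R * ‖x - z‖ := by
      have h6 : ‖x‖ - ‖z‖ ≤ ‖x - z‖ := norm_sub_norm_le x z
      have h7 : (‖x‖ - ‖z‖) * (‖x‖ + ‖z‖) ≤ ‖x - z‖ * (2 * R) := by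
        refine mul_le_mul h6 (by linarith) (by positivity) (norm_nonneg _)
      nlinarith
    calc gi lam x - gi lam z ≤ gi lam x * ((lam / 2) * ‖x‖ ^ 2 - (lam / 2) * ‖z‖ ^ 2) := h1
      _ ≤ gi lam x * (lam * R * ‖x - z‖) := mul_le_mul_of_nonneg_left h5 (gi_pos lam x).le
      _ ≤ Real.exp (lam / 2 * R ^ 2) * (lam * R * ‖x - z‖) :=
          mul_le_mul_of_nonneg_right (gi_le hlam hR hx) (by positivity)
      _ = _ := by ring
  rw [abs_sub_le_iff]
  exact ⟨main x z hx hz, by rw [norm_sub_rev]; exact main z x hz hx⟩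

/-- **Key lemma.** For two weight vectors on the same sites, the change of the moments of the
cells is controlled by the change of the masses of the cells. -/
theorem key_lemma [Nonempty ι] {ρ : Measure E} [IsFiniteMeasure ρ] (hPL : PL E ρ) {R : ℝ}
    (hRpos : 0 < R)
    (hR : ∀ᵐ x ∂ρ, x ∈ Metric.closedBall (0:E) R) (y : ι → E) (ψ0 ψ1 : ι → ℝ)
    (hnull : ∀ ψ : ι → ℝ, ∀ i j, i ≠ j → ρ (cell y ψ i ∩ cell y ψ j) = 0)
    (q : ι → E → ℝ) (hq : ∀ i, Measurable (q i))
    (hqR : ∀ i, ∀ x ∈ Metric.closedBall (0:E) R, |q i x| ≤ R)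
    (hqlip : ∀ i, ∀ x ∈ Metric.closedBall (0:E) R, ∀ z ∈ Metric.closedBall (0:E) R,
      |q i x - q i z| ≤ ‖x - z‖) :
    ∑ i, (∫ x in cell y ψ0 i, q i x ∂ρ - ∫ x in cell y ψ1 i, q i x ∂ρ) ^ 2 /
        max (ρ.real (cell y ψ0 i)) (ρ.real (cell y ψ1 i)) ≤
      400 * R ^ 2 * ∑ i, (ρ.real (cell y ψ0 i) - ρ.real (cell y ψ1 i)) ^ 2 /
        max (ρ.real (cell y ψ0 i)) (ρ.real (cell y ψ1 i)) := by
  set lam : ℝ := 1 / (8 * R ^ 2) with hlamdef
  have hlam : 0 < lam := by positivity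
  have hlamR : lam / 2 * R ^ 2 = 1 / 16 := by rw [hlamdef]; field_simp; norm_num
  set B := Metric.closedBall (0:E) R with hB
  have hBn : ∀ x ∈ B, ‖x‖ ≤ R := fun x hx => by simpa [hB] using hx
  set κ := Real.exp (1/16) with hκ
  have hκ2 : κ ^ 2 ≤ 1.14 := by
    have : κ ^ 2 = Real.exp (1/8) := by rw [hκ, ← Real.exp_nat_mul]; norm_num
    rw [this]; exact exp_bound18
  have hκ1 : 1 ≤ κ := Real.one_le_exp (by norm_num)
  have hgm : Measurable (gw lam : E → ℝ) := measurable_gw lam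
  have him : Measurable (gi lam : E → ℝ) := measurable_gi lam
  have hg1 : ∀ x : E, gw lam x ≤ 1 := fun x => gw_le_one hlam.le x
  have hgiκ : ∀ x ∈ B, gi lam x ≤ κ := fun x hx => by
    have := gi_le hlam.le hRpos.le (hBn x hx)
    rwa [hlamR] at this
  set a : ι → ℝ := fun i => ∫ x in cell y ψ0 i, gw lam x ∂ρ with ha
  set b : ι → ℝ := fun i => ∫ x in cell y ψ1 i, gw lam x ∂ρ with hb
  set m : ι → ℝ := fun i => ρ.real (cell y ψ0 i) with hm
  set n : ι → ℝ := fun i => ρ.real (cell y ψ1 i) with hn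
  have hcellm : ∀ (ψ : ι → ℝ) i, MeasurableSet (cell y ψ i) := fun ψ i =>
    (isClosed_cell y ψ i).measurableSet
  have ha0 : ∀ i, 0 ≤ a i := fun i => integral_nonneg fun x => (gw_pos lam x).le
  have hb0 : ∀ i, 0 ≤ b i := fun i => integral_nonneg fun x => (gw_pos lam x).le
  have hgint : ∀ S : Set E, IntegrableOn (gw lam : E → ℝ) S ρ := by
    intro S
    have := integrable_of_bdd (ρ := ρ) (measurable_gw (E := E) lam) MeasurableSet.univ (M := 1)
      (fun x _ => by rw [abs_of_pos (gw_pos lam x)]; exact gw_le_one hlam.le x)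
    rw [integrableOn_univ] at this
    exact this.integrableOn
  -- comparison of weighted mass and mass
  have hle : ∀ (ψ : ι → ℝ) i, ∫ x in cell y ψ i, gw lam x ∂ρ ≤ ρ.real (cell y ψ i) := by
    intro ψ i
    calc ∫ x in cell y ψ i, gw lam x ∂ρ ≤ ∫ x in cell y ψ i, (1:ℝ) ∂ρ :=
          integral_mono (hgint _) (integrable_const _) hg1
      _ = ρ.real (cell y ψ i) := by simp
  have hzero : ∀ (ψ : ι → ℝ) i, ∫ x in cell y ψ i, gw lam x ∂ρ = 0 → ρ (cell y ψ i) = 0 := by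
    intro ψ i h0
    by_contra hne
    have hpos : 0 < ∫ x in cell y ψ i, gw lam x ∂ρ := by
      rw [setIntegral_pos_iff_support_of_nonneg_ae
        (Filter.Eventually.of_forall fun x => (gw_pos lam x).le) (hgint _)]
      have : Function.support (gw lam : E → ℝ) = univ := by
        ext x; simp [(gw_pos lam x).ne']
      rw [this, univ_inter]
      exact pos_iff_ne_zero.2 hne
    linarith
  -- masses through weights
  have hmass : ∀ (ψ : ι → ℝ) i, ∫ x in cell y ψ i, gw lam x * gi lam x ∂ρ = ρ.real (cell y ψ i) := by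
    intro ψ i
    simp_rw [gw_mul_gi]
    simp
  have hqmass : ∀ (ψ : ι → ℝ) i, ∫ x in cell y ψ i, gw lam x * (q i x * gi lam x) ∂ρ =
      ∫ x in cell y ψ i, q i x ∂ρ := by
    intro ψ i
    congr 1; ext x
    calc gw lam x * (q i x * gi lam x) = q i x * (gw lam x * gi lam x) := by ring
      _ = q i x := by rw [gw_mul_gi, mul_one]
  -- first application: mass
  set S := ∑ i, (√(a i) - √(b i)) ^ 2 with hS
  set H := ∑ i, (√(m i) - √(n i)) ^ 2 with hH
  have hS0 : 0 ≤ S := Finset.sum_nonneg fun i _ => sq_nonneg _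
  have h1 := sum_ineq hPL hR y ψ0 ψ1 hnull hlam (L := κ * (lam * R)) (by positivity)
    (fun _ => gi lam) (fun _ => him) (M := κ)
    (fun i x hx => by rw [abs_of_pos (gi_pos lam x)]; exact hgiκ x hx)
    (fun i x hx z hz => by
      have := gi_lip hlam.le hRpos.le (hBn x hx) (hBn z hz)
      rwa [hlamR] at this)
  simp only [hmass] at h1
  have hcoef1 : 4 * (κ * (lam * R)) ^ 2 / lam ≤ 0.57 := by
    have : 4 * (κ * (lam * R)) ^ 2 / lam = 4 * κ ^ 2 * (lam * R ^ 2) := by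
      field_simp
    rw [this]
    have h2 : lam * R ^ 2 = 1 / 8 := by linarith
    rw [h2]; linarith
  have hSH : S ≤ 3 * H := by
    have h2 : S ≤ 2 * H + 1 / 2 * ∑ i, √(a i) * √(b i) * (m i / a i - n i / b i) ^ 2 := by
      rw [hS, hH, Finset.mul_sum, Finset.mul_sum, ← Finset.sum_add_distrib]
      refine Finset.sum_le_sum fun i _ => ?_
      refine mass_index (ha0 i) (hb0 i) (hle ψ0 i) (hle ψ1 i) ?_ ?_
      · intro h; simp only [hm, Measure.real]; rw [hzero ψ0 i h]; rfl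
      · intro h; simp only [hn, Measure.real]; rw [hzero ψ1 i h]; rfl
    have h3 : 4 * (κ * (lam * R)) ^ 2 / lam * S ≤ 0.57 * S :=
      mul_le_mul_of_nonneg_right hcoef1 hS0
    have h4 : ∑ i, √(a i) * √(b i) * (m i / a i - n i / b i) ^ 2 ≤ 0.57 * S := h1.trans h3
    have h5 : 0 ≤ H := Finset.sum_nonneg fun i _ => sq_nonneg _
    linarith
  -- second application : moments
  have h2 := sum_ineq hPL hR y ψ0 ψ1 hnull hlam (L := 9 / 8 * κ) (by positivity)
    (fun i x => q i x * gi lam x) (fun i => (hq i).mul him) (M := R * κ)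
    (fun i x hx => by
      rw [abs_mul, abs_of_pos (gi_pos lam x)]
      exact mul_le_mul (hqR i x hx) (hgiκ x hx) (gi_pos lam x).le hRpos.le)
    (fun i x hx z hz => by
      have h3 := gi_lip hlam.le hRpos.le (hBn x hx) (hBn z hz)
      rw [hlamR] at h3
      have h4 : q i x * gi lam x - q i z * gi lam z =
        (q i x - q i z) * gi lam x + q i z * (gi lam x - gi lam z) := by ring
      rw [h4]
      refine (abs_add_le _ _).trans ?_
      rw [abs_mul, abs_mul, abs_of_pos (gi_pos lam x)]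
      have h5 : |q i x - q i z| * gi lam x ≤ ‖x - z‖ * κ :=
        mul_le_mul (hqlip i x hx z hz) (hgiκ x hx) (gi_pos lam x).le (norm_nonneg _)
      have h6 : |q i z| * |gi lam x - gi lam z| ≤ R * (κ * (lam * R) * ‖x - z‖) :=
        mul_le_mul (hqR i z hz) h3 (abs_nonneg _) hRpos.le
      have h7 : R * (κ * (lam * R) * ‖x - z‖) = 1 / 8 * κ * ‖x - z‖ := by
        have : lam * R ^ 2 = 1 / 8 := by linarith
        calc R * (κ * (lam * R) * ‖x - z‖) = (lam * R ^ 2) * κ * ‖x - z‖ := by ring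
          _ = _ := by rw [this]
      rw [h7] at h6
      linarith)
  simp only [hqmass] at h2
  have hcoef2 : 4 * (9 / 8 * κ) ^ 2 / lam ≤ 47 * R ^ 2 := by
    have : 4 * (9 / 8 * κ) ^ 2 / lam = 81 / 2 * κ ^ 2 * R ^ 2 := by
      rw [hlamdef]; field_simp; ring
    rw [this]
    have : 0 ≤ R ^ 2 := sq_nonneg R
    nlinarith
  -- per index moment inequality
  have havg : ∀ (ψ : ι → ℝ) i, |(∫ x in cell y ψ i, q i x ∂ρ) / (∫ x in cell y ψ i, gw lam x ∂ρ)| ≤
      R * κ := by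
    intro ψ i
    have hg0 : 0 ≤ ∫ x in cell y ψ i, gw lam x ∂ρ := integral_nonneg fun x => (gw_pos lam x).le
    rcases hg0.eq_or_lt with h | hpos
    · rw [← h]; simp; positivity
    rw [abs_div, abs_of_pos hpos, div_le_iff₀ hpos, ← hqmass]
    calc |∫ x in cell y ψ i, gw lam x * (q i x * gi lam x) ∂ρ|
        ≤ ∫ x in cell y ψ i, |gw lam x * (q i x * gi lam x)| ∂ρ := abs_integral_le_integral_abs
      _ ≤ ∫ x in cell y ψ i, (R * κ) * gw lam x ∂ρ := by
          have haeB : ∀ᵐ x ∂(ρ.restrict (cell y ψ i)), x ∈ B := ae_restrict_of_ae hR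
          refine integral_mono_of_nonneg (Filter.Eventually.of_forall fun x => abs_nonneg _)
            ((hgint _).const_mul _) ?_
          filter_upwards [haeB] with x hx
          rw [abs_mul, abs_of_pos (gw_pos lam x), mul_comm]
          refine mul_le_mul_of_nonneg_right ?_ (gw_pos lam x).le
          rw [abs_mul, abs_of_pos (gi_pos lam x)]
          exact mul_le_mul (hqR i x hx) (hgiκ x hx) (gi_pos lam x).le hRpos.le
      _ = R * κ * ∫ x in cell y ψ i, gw lam x ∂ρ := integral_const_mul _ _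
  have hmul : ∀ (ψ : ι → ℝ) i, ∫ x in cell y ψ i, q i x ∂ρ =
      (∫ x in cell y ψ i, gw lam x ∂ρ) *
        ((∫ x in cell y ψ i, q i x ∂ρ) / (∫ x in cell y ψ i, gw lam x ∂ρ)) := by
    intro ψ i
    by_cases h : ∫ x in cell y ψ i, gw lam x ∂ρ = 0
    · have h0 := hzero ψ i h
      rw [h, zero_mul]
      exact setIntegral_measure_zero _ h0
    · rw [mul_div_cancel₀ _ h]
  have hmom : ∀ i, (∫ x in cell y ψ0 i, q i x ∂ρ - ∫ x in cell y ψ1 i, q i x ∂ρ) ^ 2 /
        max (m i) (n i) ≤ 8 * (R * κ) ^ 2 * (√(a i) - √(b i)) ^ 2 +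
        2 * (√(a i) * √(b i) * ((∫ x in cell y ψ0 i, q i x ∂ρ) / a i -
          (∫ x in cell y ψ1 i, q i x ∂ρ) / b i) ^ 2) := by
    intro i
    have h3 := moment_le (ha0 i) (hb0 i) (hle ψ0 i) (hle ψ1 i) (havg ψ0 i) (havg ψ1 i)
      (c := max (m i) (n i)) rfl
    rw [← hmul ψ0 i, ← hmul ψ1 i] at h3
    exact h3
  have hHle : H ≤ ∑ i, (m i - n i) ^ 2 / max (m i) (n i) :=
    Finset.sum_le_sum fun i _ => sqrt_sub_sq_le measureReal_nonneg measureReal_nonneg
  calc ∑ i, (∫ x in cell y ψ0 i, q i x ∂ρ - ∫ x in cell y ψ1 i, q i x ∂ρ) ^ 2 / max (m i) (n i)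
      ≤ ∑ i, (8 * (R * κ) ^ 2 * (√(a i) - √(b i)) ^ 2 +
        2 * (√(a i) * √(b i) * ((∫ x in cell y ψ0 i, q i x ∂ρ) / a i -
          (∫ x in cell y ψ1 i, q i x ∂ρ) / b i) ^ 2)) := Finset.sum_le_sum fun i _ => hmom i
    _ = 8 * (R * κ) ^ 2 * S + 2 * ∑ i, (√(a i) * √(b i) *
        ((∫ x in cell y ψ0 i, q i x ∂ρ) / a i - (∫ x in cell y ψ1 i, q i x ∂ρ) / b i) ^ 2) := by
        rw [Finset.sum_add_distrib, ← Finset.mul_sum, ← Finset.mul_sum]
    _ ≤ 8 * (R * κ) ^ 2 * S + 2 * (4 * (9 / 8 * κ) ^ 2 / lam * S) := by linarith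
    _ ≤ 8 * (R * κ) ^ 2 * S + 2 * (47 * R ^ 2 * S) := by
        have := mul_le_mul_of_nonneg_right hcoef2 hS0
        linarith
    _ ≤ (9.12 * R ^ 2 + 94 * R ^ 2) * S := by
        have h3 : (R * κ) ^ 2 = κ ^ 2 * R ^ 2 := by ring
        rw [h3]
        have h4 : κ ^ 2 * R ^ 2 ≤ 1.14 * R ^ 2 := mul_le_mul_of_nonneg_right hκ2 (sq_nonneg R)
        have h5 := mul_le_mul_of_nonneg_right h4 hS0
        linarith
    _ ≤ (9.12 * R ^ 2 + 94 * R ^ 2) * (3 * H) := mul_le_mul_of_nonneg_left hSH (by positivity)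
    _ ≤ 400 * R ^ 2 * H := by
        have h5 : 0 ≤ R ^ 2 * H := mul_nonneg (sq_nonneg R) (Finset.sum_nonneg fun i _ => sq_nonneg _)
        linarith
    _ ≤ _ := mul_le_mul_of_nonneg_left hHle (by positivity)

end Crest.Agent.R082.Key
end

-- ▼ part R082/Key
section

/-!
Row 82, part B: first moments of Laguerre cells are controlled by their masses.
-/

set_option autoImplicit false

open MeasureTheory Set
open scoped ENNReal NNReal
open Crest.AnalysisR.OT

namespace Crest.Agent.R082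

open Crest.Agent.Lib.PrekopaLeindler

variable {d : ℕ}

lemma PL_uniformProbOn {K : Set (E d)} (hKc : IsCompact K) (hKv : Convex ℝ K)
    (hKi : (interior K).Nonempty) : PL (E d) (uniformProbOn K) := by
  unfold uniformProbOn
  refine Key.PL_smul (Key.PL_restrict (PL_euclidean d) hKc.measurableSet hKv) ?_ ?_
  · exact ENNReal.inv_ne_zero.2 hKc.measure_lt_top.ne
  · exact ENNReal.inv_ne_top.2 (volume_ne_zero_of_interior hKi)

/-- Part B (consequence of the key lemma) : first moments of Laguerre cells are controlled by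
their masses. -/
theorem moment_bound (K : Set (E d)) (hKc : IsCompact K) (hKv : Convex ℝ K)
    (hKi : (interior K).Nonempty) :
    ∃ C : ℝ, 0 ≤ C ∧ ∀ (ι : Type) [Fintype ι] [Nonempty ι] (y : ι → E d) (_ : Function.Injective y)
      (ψ ψ' : ι → ℝ),
      ∑ i, ‖(∫ x in cell K y ψ i, x ∂(uniformProbOn K)) - ∫ x in cell K y ψ' i, x ∂(uniformProbOn K)‖ ^ 2 /
          max ((uniformProbOn K).real (cell K y ψ i)) ((uniformProbOn K).real (cell K y ψ' i)) ≤
        C * ∑ i, ((uniformProbOn K).real (cell K y ψ i) - (uniformProbOn K).real (cell K y ψ' i)) ^ 2 /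
          max ((uniformProbOn K).real (cell K y ψ i)) ((uniformProbOn K).real (cell K y ψ' i)) := by
  haveI := isProbabilityMeasure_uniformProbOn hKc hKi
  obtain ⟨R0, hR0⟩ := hKc.isBounded.subset_closedBall (0 : E d)
  set R := max R0 1 with hRdef
  have hRpos : 0 < R := lt_of_lt_of_le one_pos (le_max_right _ _)
  have hKR : K ⊆ Metric.closedBall (0 : E d) R :=
    hR0.trans (Metric.closedBall_subset_closedBall (le_max_left _ _))
  have haeK := ae_mem_uniformProbOn (K := K) hKc.measurableSet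
  refine ⟨400 * R ^ 2, by positivity, ?_⟩
  intro ι _ _ y hy ψ ψ'
  -- cells
  have hcelleq : ∀ (φ : ι → ℝ) i, (cell K y φ i : Set (E d)) =ᵐ[uniformProbOn K] Key.cell y φ i := by
    intro φ i
    filter_upwards [haeK] with x hx
    apply propext
    exact ⟨fun h => h.2, fun h => ⟨hx, h⟩⟩
  have hreal : ∀ (φ : ι → ℝ) i, (uniformProbOn K).real (cell K y φ i) =
      (uniformProbOn K).real (Key.cell y φ i) := fun φ i => measureReal_congr (hcelleq φ i)
  have hnull : ∀ φ : ι → ℝ, ∀ i j, i ≠ j → uniformProbOn K (Key.cell y φ i ∩ Key.cell y φ j) = 0 := by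
    intro φ i j hij
    apply uniformProbOn_ac K
    refine measure_mono_null ?_ (volume_hyperplane (y i - y j) (sub_ne_zero.2 (hy.ne hij)) (φ i - φ j))
    rintro x ⟨h1, h2⟩
    have h3 := h1 j
    have h4 := h2 i
    change inner ℝ x (y i - y j) = φ i - φ j
    rw [inner_sub_right]
    linarith
  set P : ι → E d := fun i => (∫ x in cell K y ψ i, x ∂(uniformProbOn K)) -
    ∫ x in cell K y ψ' i, x ∂(uniformProbOn K) with hP
  set u : ι → E d := fun i => ‖P i‖⁻¹ • P i with hu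
  have hu1 : ∀ i, ‖u i‖ ≤ 1 := by
    intro i
    rw [hu]; simp only [norm_smul, norm_inv, norm_norm]
    by_cases h : ‖P i‖ = 0
    · rw [h]; simp
    · rw [inv_mul_cancel₀ h]
  have hPu : ∀ i, inner ℝ (u i) (P i) = ‖P i‖ := by
    intro i
    rw [hu]; simp only [inner_smul_left, RCLike.conj_to_real, real_inner_self_eq_norm_sq]
    by_cases h : ‖P i‖ = 0
    · rw [h]; simp
    · field_simp
  have hint : ∀ S : Set (E d), Integrable (fun x : E d => x) ((uniformProbOn K).restrict S) := by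
    intro S
    refine Integrable.restrict ?_
    refine Integrable.of_bound aestronglyMeasurable_id R ?_
    filter_upwards [haeK] with x hx
    simpa using hKR hx
  have key := Key.key_lemma (ρ := uniformProbOn K) (PL_uniformProbOn hKc hKv hKi) hRpos
    (haeK.mono fun x hx => hKR hx) y ψ ψ' hnull (fun i x => inner ℝ (u i) x)
    (fun i => by fun_prop)
    (fun i x hx => by
      refine (abs_real_inner_le_norm _ _).trans ?_
      have : ‖x‖ ≤ R := by simpa using hx
      calc ‖u i‖ * ‖x‖ ≤ 1 * R := mul_le_mul (hu1 i) this (norm_nonneg _) zero_le_one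
        _ = R := one_mul R)
    (fun i x _ z _ => by
      rw [← inner_sub_right]
      refine (abs_real_inner_le_norm _ _).trans ?_
      calc ‖u i‖ * ‖x - z‖ ≤ 1 * ‖x - z‖ := mul_le_mul_of_nonneg_right (hu1 i) (norm_nonneg _)
        _ = _ := one_mul _)
  have hdiff : ∀ i, ∫ x in Key.cell y ψ i, inner ℝ (u i) x ∂(uniformProbOn K) -
      ∫ x in Key.cell y ψ' i, inner ℝ (u i) x ∂(uniformProbOn K) = ‖P i‖ := by
    intro i
    rw [← setIntegral_congr_set (hcelleq ψ i), ← setIntegral_congr_set (hcelleq ψ' i),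
      integral_inner (hint _), integral_inner (hint _), ← inner_sub_right]
    exact hPu i
  simp only [hdiff, ← hreal] at key
  exact key

end Crest.Agent.R082
end

-- ▼ part R082/CrossFinal
section

/-!
Row 82: the cross difference estimate (X).
-/

set_option autoImplicit false

open MeasureTheory
open scoped ENNReal NNReal
open Crest.AnalysisR.OT

namespace Crest.Agent.R082

variable {d : ℕ}

/-- Part X. -/
theorem TT_cross_diff_le (K : Set (E d)) (hKc : IsCompact K) (hKv : Convex ℝ K)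
    (hKi : (interior K).Nonempty) :
    ∃ C : ℝ, 0 ≤ C ∧ ∀ (ι : Type) [Fintype ι] [Nonempty ι] (m : ι → ℝ) (_ : ∀ i, 0 < m i)
      (_ : ∑ i, m i = 1) (y z : ι → E d)
      (h : E d → ℝ) (_ : Measurable h) (_ : ∀ x, |h x - 1| ≤ 1 / 2)
      (_ : ∫ x, h x ∂(uniformProbOn K) = 1),
      TT (rhoh K h) m z - TT (rhoh K h) m y - (TT (uniformProbOn K) m z - TT (uniformProbOn K) m y) ≤
        C * Real.sqrt (∫ x, (h x - 1) ^ 2 ∂(uniformProbOn K)) *
          Real.sqrt (∑ i, m i * ‖y i - z i‖ ^ 2) := by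
  obtain ⟨R, hR⟩ := hKc.isBounded.exists_norm_le
  obtain ⟨C, hC, hMB⟩ := moment_bound K hKc hKv hKi
  refine ⟨Real.sqrt (4 * C + 4 * R ^ 2), Real.sqrt_nonneg _, ?_⟩
  intro ι _ _ m hm hm1 y z h hmeas hb h1
  exact TT_cross_diff_le_of_momentBound hKc hKi R hR C hC hMB m hm hm1 y z h hmeas hb h1

end Crest.Agent.R082
end

-- ▼ part R082/Shift
section

/-!
Row 82: the shift argument (F1, F2), final statements.
-/

set_option autoImplicit false

open MeasureTheory
open scoped ENNReal NNReal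
open Crest.AnalysisR.OT

namespace Crest.Agent.R082

variable {d : ℕ}

lemma Sh.exists_common_bound {K Y : Set (E d)} (hKc : IsCompact K) (hYc : IsCompact Y) :
    ∃ R : ℝ, (∀ x ∈ K, ‖x‖ ≤ R) ∧ ∀ x ∈ Y, ‖x‖ ≤ R := by
  obtain ⟨R1, h1⟩ := hKc.isBounded.exists_norm_le
  obtain ⟨R2, h2⟩ := hYc.isBounded.exists_norm_le
  exact ⟨max R1 R2, fun x hx => (h1 x hx).trans (le_max_left _ _),
    fun x hx => (h2 x hx).trans (le_max_right _ _)⟩

lemma Sh.gapStmt (hd : 0 < d) {K : Set (E d)} (hKc : IsCompact K) (hKv : Convex ℝ K)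
    (hKi : (interior K).Nonempty) {Y : Set (E d)} {R : ℝ} (hKR : ∀ x ∈ K, ‖x‖ ≤ R)
    (hYR : ∀ x ∈ Y, ‖x‖ ≤ R) {μ : Measure (E d)} (hμ : IsProbabilityOn Y μ) {T : E d → E d}
    (hT : IsOptimalMap (uniformProbOn K) μ T) : Sh.GapStmt K R μ T := by
  intro ι _ _ B hB hBd hBu hBpos y hy δ hδ hyB
  exact gap_of_isOptimalMap hd K hKc hKv hKi Y R hKR hYR μ hμ T hT B hB hBd hBu hBpos y hy δ hδ hyB

/-- Part F1. Monotonicity of optimal maps under a shift. -/
theorem ae_shift_mono (hd : 0 < d) (K : Set (E d)) (hKc : IsCompact K) (hKv : Convex ℝ K)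
    (hKi : (interior K).Nonempty) (Y : Set (E d)) (hYc : IsCompact Y) (hYn : Y.Nonempty)
    (μ : Measure (E d)) (hμ : IsProbabilityOn Y μ) (T : E d → E d)
    (hT : IsOptimalMap (uniformProbOn K) μ T) (h : E d) :
    ∀ᵐ x ∂(volume : Measure (E d)), x ∈ K → x + h ∈ K → 0 ≤ inner ℝ h (T (x + h) - T x) := by
  obtain ⟨R, hKR, hYR⟩ := Sh.exists_common_bound hKc hYc
  exact Sh.ae_shift_mono_of hKc hKi hYc hYn hμ hT.1 hT.2.1 hYR
    (Sh.gapStmt hd hKc hKv hKi hKR hYR hμ hT) h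

/-- Part F2. The shift inequality. -/
theorem shift_ineq (hd : 0 < d) (K : Set (E d)) (hKc : IsCompact K) (hKv : Convex ℝ K)
    (hKi : (interior K).Nonempty) :
    ∃ C : ℝ, 0 ≤ C ∧ ∀ (Y : Set (E d)) (_ : IsCompact Y) (_ : Y.Nonempty)
      (μ ν : Measure (E d)) (_ : IsProbabilityOn Y μ) (_ : IsProbabilityOn Y ν)
      (Tμ Tν : E d → E d) (_ : IsOptimalMap (uniformProbOn K) μ Tμ)
      (_ : IsOptimalMap (uniformProbOn K) ν Tν)
      (π : Measure (E d × E d)) (_ : IsPairCoupling μ ν π) (h : E d) (p : E d → ℝ)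
      (_ : Measurable p) (_ : ∀ x, 0 ≤ p x) (_ : ∃ M, ∀ x, p x ≤ M)
      (_ : ∀ x, p x ≠ 0 → x ∈ K ∧ x + h ∈ K),
      ∫ x, p x * inner ℝ h (Tμ x - Tν (x + h)) ∂(uniformProbOn K) ≤
        C * Real.sqrt (∫ x, (p (x - h) - p x) ^ 2 ∂(uniformProbOn K)) *
          Real.sqrt (quadCost π).toReal := by
  obtain ⟨C, hC, hX⟩ := TT_cross_diff_le K hKc hKv hKi
  refine ⟨C, hC, ?_⟩
  intro Y hYc hYn μ ν hμ hν Tμ Tν hTμ hTν π hπ h p hpm hp0 hpM hps
  obtain ⟨R, hKR, hYR⟩ := Sh.exists_common_bound hKc hYc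
  obtain ⟨M, hM⟩ := hpM
  refine Sh.shift_ineq_of hKc hKi hYc hYn hYR (C := C) ?_ hC hμ hν hTμ.1 hTμ.2.1 hTν.1 hTν.2.1
    (Sh.gapStmt hd hKc hKv hKi hKR hYR hμ hTμ) (Sh.gapStmt hd hKc hKv hKi hKR hYR hν hTν) hπ
    (M := M) ⟨hpm, hp0, hM, hps⟩
  intro ι _ _ m hm hm1 y z _ h hh hh1 hh2
  exact hX ι m hm hm1 y z h hh hh1 hh2

end Crest.Agent.R082
end

-- ▼ part R082/Translate
section

/-!
Row 82: translations of a convex body, shrunken bodies and integrals over them.
-/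

set_option autoImplicit false

open MeasureTheory Set
open scoped ENNReal NNReal RealInnerProductSpace

namespace Crest.Agent.R082.Translate

variable {d : ℕ}

local notation "E" => EuclideanSpace ℝ (Fin d)

/-- the shrunken body -/
def shrink (K : Set (EuclideanSpace ℝ (Fin d))) (x₀ : EuclideanSpace ℝ (Fin d)) (t : ℝ) :
    Set (EuclideanSpace ℝ (Fin d)) :=
  AffineMap.homothety x₀ (1 - t) '' K

lemma mem_of_mem_shrink {K : Set (EuclideanSpace ℝ (Fin d))} (hKv : Convex ℝ K)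
    {x₀ : EuclideanSpace ℝ (Fin d)} {r₀ : ℝ} (hball : Metric.closedBall x₀ r₀ ⊆ K)
    {t : ℝ} (ht0 : 0 < t) (ht1 : t ≤ 1) {x v : EuclideanSpace ℝ (Fin d)}
    (hx : x ∈ shrink K x₀ t) (hv : ‖v‖ ≤ t * r₀) : x + v ∈ K := by
  obtain ⟨z, hz, rfl⟩ := hx
  have h1 : x₀ + t⁻¹ • v ∈ K := by
    apply hball
    rw [Metric.mem_closedBall, dist_eq_norm]
    simp only [add_sub_cancel_left]
    rw [norm_smul, Real.norm_eq_abs, abs_of_pos (inv_pos.mpr ht0)]
    rw [inv_mul_le_iff₀ ht0]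
    exact hv
  have h2 := hKv hz h1 (by linarith : (0:ℝ) ≤ 1 - t) ht0.le (by ring)
  convert h2 using 1
  rw [AffineMap.homothety_apply, smul_add, smul_smul, mul_inv_cancel₀ ht0.ne', one_smul]
  simp only [vsub_eq_sub, vadd_eq_add, smul_sub]
  module

lemma shrink_subset {K : Set (EuclideanSpace ℝ (Fin d))} (hKv : Convex ℝ K)
    {x₀ : EuclideanSpace ℝ (Fin d)} {r₀ : ℝ} (hr₀ : 0 ≤ r₀) (hball : Metric.closedBall x₀ r₀ ⊆ K)
    {t : ℝ} (ht0 : 0 < t) (ht1 : t ≤ 1) : shrink K x₀ t ⊆ K := by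
  intro x hx
  have := mem_of_mem_shrink hKv hball ht0 ht1 hx (v := 0) (by simp; positivity)
  simpa using this

lemma isCompact_shrink {K : Set (EuclideanSpace ℝ (Fin d))} (hKc : IsCompact K)
    (x₀ : EuclideanSpace ℝ (Fin d)) (t : ℝ) : IsCompact (shrink K x₀ t) := by
  apply hKc.image
  exact (AffineMap.homothety x₀ (1 - t)).continuous_of_finiteDimensional

lemma volume_shrink {K : Set (EuclideanSpace ℝ (Fin d))}
    (x₀ : EuclideanSpace ℝ (Fin d)) {t : ℝ} (ht1 : t ≤ 1) :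
    volume.real (shrink K x₀ t) = (1 - t) ^ d * volume.real K := by
  rw [shrink, Measure.real, Measure.addHaar_image_homothety, ENNReal.toReal_mul]
  simp only [finrank_euclideanSpace, Fintype.card_fin]
  rw [ENNReal.toReal_ofReal (abs_nonneg _), abs_of_nonneg (pow_nonneg (by linarith) _)]
  rfl

/-- If `A ⊆ K` is a measurable set with `vol K - vol A ≤ η`, then the integral over `A` of a
function bounded by `M` is close to the integral over `K`. -/
lemma abs_setIntegral_sub_le {K A : Set (EuclideanSpace ℝ (Fin d))}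
    (hKf : volume K ≠ ∞) (hAm : MeasurableSet A) (hAK : A ⊆ K) {η M : ℝ} (hM : 0 ≤ M)
    (hvol : volume.real K - volume.real A ≤ η)
    {g : EuclideanSpace ℝ (Fin d) → ℝ} (hg : IntegrableOn g K)
    (hgM : ∀ᵐ x ∂(volume.restrict K), |g x| ≤ M) :
    |(∫ x in K, g x) - ∫ x in A, g x| ≤ M * η := by
  rw [← setIntegral_sdiff hAm hg hAK]
  have h2 : volume (K \ A) < ∞ := lt_of_le_of_lt (measure_mono sdiff_subset) hKf.lt_top
  have h1 := norm_setIntegral_le_of_norm_le_const_ae (f := g) (C := M) h2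
    (ae_mono (Measure.restrict_mono sdiff_subset le_rfl) hgM)
  rw [measureReal_sdiff hAK hAm hKf] at h1
  exact h1.trans (mul_le_mul_of_nonneg_left hvol hM)

lemma setIntegral_comp_add (N : Set (EuclideanSpace ℝ (Fin d))) (v : EuclideanSpace ℝ (Fin d))
    (g : EuclideanSpace ℝ (Fin d) → ℝ) :
    ∫ x in N, g (x + v) = ∫ x in (fun x => x + v) '' N, g x :=
  ((measurePreserving_add_right volume v).setIntegral_image_emb
    (measurableEmbedding_addRight v) g N).symm

lemma ae_comp_add {K N : Set (EuclideanSpace ℝ (Fin d))} (hK : MeasurableSet K)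
    (hN : MeasurableSet N) {v : EuclideanSpace ℝ (Fin d)}
    (hNK : ∀ x ∈ N, x + v ∈ K) {P : EuclideanSpace ℝ (Fin d) → Prop}
    (hP : ∀ᵐ x ∂(volume.restrict K), P x) : ∀ᵐ x ∂(volume.restrict N), P (x + v) := by
  rw [ae_restrict_iff' hK] at hP
  rw [ae_restrict_iff' hN]
  have := (measurePreserving_add_right volume v).quasiMeasurePreserving.ae hP
  filter_upwards [this] with x hx hxN
  exact hx (hNK x hxN)

lemma integrableOn_comp_add {K N : Set (EuclideanSpace ℝ (Fin d))}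
    {v : EuclideanSpace ℝ (Fin d)}
    (hNK : ∀ x ∈ N, x + v ∈ K) {g : EuclideanSpace ℝ (Fin d) → ℝ}
    (hg : IntegrableOn g K) : IntegrableOn (fun x => g (x + v)) N := by
  have h1 : IntegrableOn g ((fun x => x + v) '' N) :=
    hg.mono_set (by rintro _ ⟨x, hx, rfl⟩; exact hNK x hx)
  exact ((measurePreserving_add_right volume v).integrableOn_image
    (measurableEmbedding_addRight v)).1 h1

lemma volume_image_add (N : Set (EuclideanSpace ℝ (Fin d))) (v : EuclideanSpace ℝ (Fin d)) :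
    volume.real ((fun x => x + v) '' N) = volume.real N := by
  rw [Measure.real, Measure.real]
  congr 1
  rw [image_add_right]
  exact measure_preimage_add_right _ _ _

lemma vol_shrink_ge {K : Set (EuclideanSpace ℝ (Fin d))} {x₀ : EuclideanSpace ℝ (Fin d)} {t : ℝ} (ht1 : t ≤ 1) :
    volume.real K - volume.real (shrink K x₀ t) ≤ d * t * volume.real K := by
  rw [volume_shrink x₀ ht1]
  have h1 : 1 - d * t ≤ (1 - t) ^ d := by
    have := one_add_mul_le_pow (a := -t) (by linarith) d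
    have h2 : (1 + -t) = 1 - t := by ring
    rw [h2] at this
    linarith
  have h3 : 0 ≤ volume.real K := measureReal_nonneg
  nlinarith


end Crest.Agent.R082.Translate
end

-- ▼ part R082/Final

/-!
Row 82: the final estimate from the shift monotonicity and the shift inequality.
-/

set_option autoImplicit false

open MeasureTheory Set
open scoped ENNReal NNReal
open Crest.AnalysisR.OT
open Crest.Agent.R082.Translate

namespace Crest.Agent.R082.Final

variable {d : ℕ}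

/-- clipping to `[0, M]` -/
noncomputable def clip (M s : ℝ) : ℝ := min (max s 0) M

lemma clip_nonneg {M s : ℝ} (hM : 0 ≤ M) : 0 ≤ clip M s := le_min (le_max_right _ _) hM

lemma clip_le {M s : ℝ} : clip M s ≤ M := min_le_right _ _

lemma abs_clip_sub_clip_le (M s t : ℝ) : |clip M s - clip M t| ≤ |s - t| := by
  unfold clip
  calc |min (max s 0) M - min (max t 0) M| ≤ |max s 0 - max t 0| := by
        simpa using abs_min_sub_min_le_max (max s 0) M (max t 0) M
    _ ≤ |s - t| := by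
        simpa using abs_max_sub_max_le_max s 0 t 0

/-- the test density -/
noncomputable def pfun (K : Set (E d)) (M : ℝ) (a b : E d → ℝ) (h : E d) (x : E d) : ℝ :=
  open Classical in if x ∈ K ∧ x + h ∈ K then clip M (a x - b (x + h)) else 0

lemma pfun_nonneg {K : Set (E d)} {M : ℝ} (hM : 0 ≤ M) (a b : E d → ℝ) (h x : E d) :
    0 ≤ pfun K M a b h x := by
  unfold pfun
  split_ifs
  · exact clip_nonneg hM
  · exact le_rfl

lemma pfun_le {K : Set (E d)} {M : ℝ} (hM : 0 ≤ M) (a b : E d → ℝ) (h x : E d) :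
    pfun K M a b h x ≤ M := by
  unfold pfun
  split_ifs
  · exact clip_le
  · exact hM

lemma measurable_pfun {K : Set (E d)} (hK : MeasurableSet K) {M : ℝ} {a b : E d → ℝ}
    (ha : Measurable a) (hb : Measurable b) (h : E d) : Measurable (pfun K M a b h) := by
  unfold pfun
  refine Measurable.ite ?_ ?_ measurable_const
  · exact hK.inter (measurable_add_const h hK)
  · unfold clip
    exact ((ha.sub (hb.comp (measurable_add_const h))).max measurable_const).min measurable_const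

lemma integrableOn_of_bound {K : Set (E d)} (hKf : volume K ≠ ∞) {f : E d → ℝ} (hf : Measurable f)
    {M : ℝ} (hfM : ∀ᵐ x ∂(volume.restrict K), |f x| ≤ M) : IntegrableOn f K := by
  refine Integrable.mono' (g := fun _ => M) (integrableOn_const hKf) hf.aestronglyMeasurable ?_
  filter_upwards [hfM] with x hx
  rwa [Real.norm_eq_abs]

section core

variable {K : Set (E d)} {x₀ : E d} {r₀ : ℝ}

/-- `∫_N (b(x+h) - b(x)) ≤ 2 L d t V` -/
lemma integral_shift_sub_le (hKc : IsCompact K) (hKv : Convex ℝ K) (_ : 0 < r₀)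
    (hball : Metric.closedBall x₀ r₀ ⊆ K) {L : ℝ} (hL : 0 ≤ L)
    {b : E d → ℝ} (hb : Measurable b) (hbL : ∀ᵐ x ∂(volume.restrict K), |b x| ≤ L)
    {t : ℝ} (ht0 : 0 < t) (ht1 : t ≤ 1) {h₁ h₂ : E d} (hh₁ : ‖h₁‖ ≤ t * r₀) (hh₂ : ‖h₂‖ ≤ t * r₀) :
    ∫ x in shrink K x₀ t, (b (x + h₁) - b (x + h₂)) ≤ 2 * L * (d * t * volume.real K) := by
  set N := shrink K x₀ t with hN
  have hKf : volume K ≠ ∞ := hKc.measure_lt_top.ne
  have hNm : MeasurableSet N := (isCompact_shrink hKc x₀ t).measurableSet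
  have h1 : ∀ x ∈ N, x + h₁ ∈ K := fun x hx => mem_of_mem_shrink hKv hball ht0 ht1 hx hh₁
  have h2 : ∀ x ∈ N, x + h₂ ∈ K := fun x hx => mem_of_mem_shrink hKv hball ht0 ht1 hx hh₂
  have hbi : IntegrableOn b K := integrableOn_of_bound hKf hb hbL
  have hv := vol_shrink_ge (K := K) (x₀ := x₀) ht1
  rw [integral_sub (integrableOn_comp_add h1 hbi) (integrableOn_comp_add h2 hbi)]
  rw [setIntegral_comp_add N h₁ b, setIntegral_comp_add N h₂ b]
  have b1 := abs_setIntegral_sub_le (A := (fun x => x + h₁) '' N)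
    (η := d * t * volume.real K) hKf
    ((measurableEmbedding_addRight h₁).measurableSet_image.2 hNm)
    (by rintro _ ⟨x, hx, rfl⟩; exact h1 x hx) hL (by rw [volume_image_add]; exact hv) hbi hbL
  have b2 := abs_setIntegral_sub_le (A := (fun x => x + h₂) '' N)
    (η := d * t * volume.real K) hKf
    ((measurableEmbedding_addRight h₂).measurableSet_image.2 hNm)
    (by rintro _ ⟨x, hx, rfl⟩; exact h2 x hx) hL (by rw [volume_image_add]; exact hv) hbi hbL
  have := (abs_le.1 b1).1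
  have := (abs_le.1 b2).2
  linarith

lemma core_one (hKc : IsCompact K) (hKv : Convex ℝ K) (hr₀ : 0 < r₀)
    (hball : Metric.closedBall x₀ r₀ ⊆ K) {L : ℝ} (hL : 0 ≤ L)
    {a b : E d → ℝ} (ha : Measurable a) (hb : Measurable b)
    (haL : ∀ᵐ x ∂(volume.restrict K), |a x| ≤ L) (hbL : ∀ᵐ x ∂(volume.restrict K), |b x| ≤ L)
    {r : ℝ} (hr : 0 < r) (hrr : r ≤ r₀) {h : E d} (hh : ‖h‖ = r)
    (hamono : ∀ᵐ x ∂(volume : Measure (E d)), x ∈ K → x + h ∈ K → a x ≤ a (x + h))
    (hbmono : ∀ᵐ x ∂(volume : Measure (E d)), x ∈ K → x + h ∈ K → b x ≤ b (x + h)) :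
    ∫ x in K, (pfun K (2 * L) a b h (x - h) - pfun K (2 * L) a b h x) ^ 2 ≤
      12 * L ^ 2 * (d * (r / r₀) * volume.real K) := by
  set t := r / r₀ with ht
  have ht0 : 0 < t := by positivity
  have ht1 : t ≤ 1 := by rw [ht, div_le_one hr₀]; exact hrr
  have htr : t * r₀ = r := by rw [ht]; field_simp
  set N := shrink K x₀ t with hN
  have hKm := hKc.measurableSet
  have hKf : volume K ≠ ∞ := hKc.measure_lt_top.ne
  have hNm : MeasurableSet N := (isCompact_shrink hKc x₀ t).measurableSet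
  have hNK : N ⊆ K := shrink_subset hKv hr₀.le hball ht0 ht1
  have n1 : ‖h‖ ≤ t * r₀ := by rw [htr, hh]
  have n2 : ‖-h‖ ≤ t * r₀ := by rw [norm_neg]; exact n1
  have n3 : ‖(0 : E d)‖ ≤ t * r₀ := by rw [norm_zero]; positivity
  have hp : ∀ x ∈ N, x + h ∈ K := fun x hx => mem_of_mem_shrink hKv hball ht0 ht1 hx n1
  have hm : ∀ x ∈ N, x + -h ∈ K := fun x hx => mem_of_mem_shrink hKv hball ht0 ht1 hx n2
  have h0 : ∀ x ∈ N, x + 0 ∈ K := fun x hx => mem_of_mem_shrink hKv hball ht0 ht1 hx n3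
  have hM : (0 : ℝ) ≤ 2 * L := by positivity
  set p := pfun K (2 * L) a b h with hpdef
  have hpm : Measurable p := measurable_pfun hKm ha hb h
  have hFm : Measurable (fun x => (p (x - h) - p x) ^ 2) :=
    ((hpm.comp (measurable_sub_const h)).sub hpm).pow_const 2
  have hpa : ∀ x, |p (x - h) - p x| ≤ 2 * L := by
    intro x
    have := pfun_nonneg hM a b h x (K := K)
    have := pfun_nonneg hM a b h (x - h) (K := K)
    have := pfun_le hM a b h x (K := K)
    have := pfun_le hM a b h (x - h) (K := K)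
    rw [abs_le]; constructor <;> linarith
  have hFb : ∀ x, |(p (x - h) - p x) ^ 2| ≤ 4 * L ^ 2 := by
    intro x
    rw [abs_of_nonneg (sq_nonneg _), ← sq_abs]
    nlinarith [hpa x, abs_nonneg (p (x - h) - p x)]
  have hFi : IntegrableOn (fun x => (p (x - h) - p x) ^ 2) K :=
    integrableOn_of_bound hKf hFm (M := 4 * L ^ 2) (Filter.Eventually.of_forall hFb)
  have hv := vol_shrink_ge (K := K) (x₀ := x₀) ht1
  have c1 : (∫ x in K, (p (x - h) - p x) ^ 2) - ∫ x in N, (p (x - h) - p x) ^ 2 ≤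
      4 * L ^ 2 * (d * t * volume.real K) :=
    (le_abs_self _).trans (abs_setIntegral_sub_le hKf hNm hNK (by positivity) hv hFi
      (Filter.Eventually.of_forall hFb))
  have hai : IntegrableOn a K := integrableOn_of_bound hKf ha haL
  have hbi : IntegrableOn b K := integrableOn_of_bound hKf hb hbL
  have hA : IntegrableOn (fun x => a (x + 0) - a (x + -h)) N :=
    (integrableOn_comp_add h0 hai).sub (integrableOn_comp_add hm hai)
  have hB : IntegrableOn (fun x => b (x + h) - b (x + 0)) N :=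
    (integrableOn_comp_add hp hbi).sub (integrableOn_comp_add h0 hbi)
  have key : ∀ᵐ x ∂(volume.restrict N), (p (x - h) - p x) ^ 2 ≤
      2 * L * ((a (x + 0) - a (x + -h)) + (b (x + h) - b (x + 0))) := by
    have hamono' := (measurePreserving_add_right volume (-h)).quasiMeasurePreserving.ae hamono
    filter_upwards [ae_restrict_of_ae hamono', ae_restrict_of_ae hbmono,
      ae_restrict_mem hNm] with x h1 h2 hx
    have g1 : x - h = x + -h := sub_eq_add_neg _ _
    have g2 : x + -h + h = x := by abel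
    have h3 := h1 (hm x hx) (by rw [g2]; exact hNK hx)
    rw [g2] at h3
    have h4 := h2 (hNK hx) (hp x hx)
    have e1 : p x = clip (2 * L) (a x - b (x + h)) := by
      rw [hpdef]; unfold pfun; rw [if_pos ⟨hNK hx, hp x hx⟩]
    have e2 : p (x - h) = clip (2 * L) (a (x + -h) - b x) := by
      rw [hpdef]; unfold pfun
      rw [g1, g2, if_pos ⟨hm x hx, hNK hx⟩]
    have e3 : |p (x - h) - p x| ≤ (a x - a (x + -h)) + (b (x + h) - b x) := by
      rw [e1, e2]
      refine (abs_clip_sub_clip_le _ _ _).trans ?_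
      rw [abs_le]; constructor <;> linarith
    rw [add_zero, ← sq_abs]
    have e4 := hpa x
    nlinarith [abs_nonneg (p (x - h) - p x)]
  have c2 : ∫ x in N, (p (x - h) - p x) ^ 2 ≤
      2 * L * (2 * L * (d * t * volume.real K) + 2 * L * (d * t * volume.real K)) := by
    calc ∫ x in N, (p (x - h) - p x) ^ 2
        ≤ ∫ x in N, 2 * L * ((a (x + 0) - a (x + -h)) + (b (x + h) - b (x + 0))) :=
          integral_mono_ae (hFi.mono_set hNK) ((hA.add hB).const_mul _) key
      _ = 2 * L * ((∫ x in N, (a (x + 0) - a (x + -h))) + ∫ x in N, (b (x + h) - b (x + 0))) := by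
          rw [integral_const_mul, integral_add hA hB]
      _ ≤ _ := by
          refine mul_le_mul_of_nonneg_left (add_le_add ?_ ?_) hM
          · exact integral_shift_sub_le hKc hKv hr₀ hball hL ha haL ht0 ht1 n3 n2
          · exact integral_shift_sub_le hKc hKv hr₀ hball hL hb hbL ht0 ht1 n1 n3
  have c3 : 2 * L * (2 * L * (d * t * volume.real K) + 2 * L * (d * t * volume.real K)) +
    4 * L ^ 2 * (d * t * volume.real K) = 12 * L ^ 2 * (d * t * volume.real K) := by ring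
  linarith

lemma core_two (hKc : IsCompact K) (hKv : Convex ℝ K) (hr₀ : 0 < r₀)
    (hball : Metric.closedBall x₀ r₀ ⊆ K) {L : ℝ} (hL : 0 ≤ L)
    {a b : E d → ℝ} (ha : Measurable a) (hb : Measurable b)
    (haL : ∀ᵐ x ∂(volume.restrict K), |a x| ≤ L) (hbL : ∀ᵐ x ∂(volume.restrict K), |b x| ≤ L)
    {r : ℝ} (hr : 0 < r) (hrr : r ≤ r₀) {h : E d} (hh : ‖h‖ = r)
    (hbmono : ∀ᵐ x ∂(volume : Measure (E d)), x ∈ K → x + h ∈ K → b x ≤ b (x + h)) :
    ∫ x in K, (max (a x - b x) 0) ^ 2 ≤ 2 * (∫ x in K, pfun K (2 * L) a b h x ^ 2) +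
      12 * L ^ 2 * (d * (r / r₀) * volume.real K) := by
  set t := r / r₀ with ht
  have ht0 : 0 < t := by positivity
  have ht1 : t ≤ 1 := by rw [ht, div_le_one hr₀]; exact hrr
  have htr : t * r₀ = r := by rw [ht]; field_simp
  set N := shrink K x₀ t with hN
  have hKm := hKc.measurableSet
  have hKf : volume K ≠ ∞ := hKc.measure_lt_top.ne
  have hNm : MeasurableSet N := (isCompact_shrink hKc x₀ t).measurableSet
  have hNK : N ⊆ K := shrink_subset hKv hr₀.le hball ht0 ht1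
  have n1 : ‖h‖ ≤ t * r₀ := by rw [htr, hh]
  have n3 : ‖(0 : E d)‖ ≤ t * r₀ := by rw [norm_zero]; positivity
  have hp : ∀ x ∈ N, x + h ∈ K := fun x hx => mem_of_mem_shrink hKv hball ht0 ht1 hx n1
  have h0 : ∀ x ∈ N, x + 0 ∈ K := fun x hx => mem_of_mem_shrink hKv hball ht0 ht1 hx n3
  have hM : (0 : ℝ) ≤ 2 * L := by positivity
  set p := pfun K (2 * L) a b h with hpdef
  have hpm : Measurable p := measurable_pfun hKm ha hb h
  have hp2b : ∀ x, |p x ^ 2| ≤ 4 * L ^ 2 := by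
    intro x
    rw [abs_of_nonneg (sq_nonneg _)]
    have g1 := pfun_nonneg hM a b h x (K := K)
    have g2 := pfun_le hM a b h x (K := K)
    rw [← hpdef] at g1 g2
    nlinarith
  have hp2i : IntegrableOn (fun x => p x ^ 2) K :=
    integrableOn_of_bound hKf (hpm.pow_const 2) (M := 4 * L ^ 2)
      (Filter.Eventually.of_forall hp2b)
  have hFm : Measurable (fun x => (max (a x - b x) 0) ^ 2) :=
    ((ha.sub hb).max measurable_const).pow_const 2
  have hFb : ∀ᵐ x ∂(volume.restrict K), |(max (a x - b x) 0) ^ 2| ≤ 4 * L ^ 2 := by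
    filter_upwards [haL, hbL] with x h1 h2
    rw [abs_of_nonneg (sq_nonneg _)]
    rw [abs_le] at h1 h2
    have g1 : max (a x - b x) 0 ≤ 2 * L := max_le (by linarith) hM
    have g2 : 0 ≤ max (a x - b x) 0 := le_max_right _ _
    nlinarith
  have hFi : IntegrableOn (fun x => (max (a x - b x) 0) ^ 2) K :=
    integrableOn_of_bound hKf hFm hFb
  have hv := vol_shrink_ge (K := K) (x₀ := x₀) ht1
  have c1 : (∫ x in K, (max (a x - b x) 0) ^ 2) - ∫ x in N, (max (a x - b x) 0) ^ 2 ≤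
      4 * L ^ 2 * (d * t * volume.real K) :=
    (le_abs_self _).trans (abs_setIntegral_sub_le hKf hNm hNK (by positivity) hv hFi hFb)
  have hbi : IntegrableOn b K := integrableOn_of_bound hKf hb hbL
  have hB : IntegrableOn (fun x => b (x + h) - b (x + 0)) N :=
    (integrableOn_comp_add hp hbi).sub (integrableOn_comp_add h0 hbi)
  have key : ∀ᵐ x ∂(volume.restrict N), (max (a x - b x) 0) ^ 2 ≤
      2 * p x ^ 2 + 4 * L * (b (x + h) - b (x + 0)) := by
    filter_upwards [ae_restrict_of_ae hbmono, ae_restrict_mem hNm,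
      ae_mono (Measure.restrict_mono hNK le_rfl) haL,
      ae_mono (Measure.restrict_mono hNK le_rfl) hbL,
      ae_comp_add hKm hNm hp hbL] with x h1 hx h2 h3 h4
    have h5 := h1 (hNK hx) (hp x hx)
    rw [add_zero]
    have e1 : p x = clip (2 * L) (a x - b (x + h)) := by
      rw [hpdef]; unfold pfun; rw [if_pos ⟨hNK hx, hp x hx⟩]
    rw [abs_le] at h2 h3 h4
    have e2 : p x = max (a x - b (x + h)) 0 := by
      rw [e1, clip, min_eq_left]
      exact max_le (by linarith) hM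
    rw [e2]
    have g0 : 0 ≤ max (a x - b (x + h)) 0 := le_max_right _ _
    have g1 : max (a x - b x) 0 ≤ max (a x - b (x + h)) 0 + (b (x + h) - b x) := by
      apply max_le
      · linarith [le_max_left (a x - b (x + h)) 0]
      · linarith
    have g2 : 0 ≤ max (a x - b x) 0 := le_max_right _ _
    have g3 : b (x + h) - b x ≤ 2 * L := by linarith
    have g4 : 0 ≤ b (x + h) - b x := by linarith
    set P := max (a x - b (x + h)) 0
    set δ := b (x + h) - b x
    have g5 : (max (a x - b x) 0) ^ 2 ≤ (P + δ) ^ 2 := pow_le_pow_left₀ g2 g1 2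
    nlinarith [sq_nonneg (P - δ)]
  have c2 : ∫ x in N, (max (a x - b x) 0) ^ 2 ≤
      2 * (∫ x in K, p x ^ 2) + 4 * L * (2 * L * (d * t * volume.real K)) := by
    calc ∫ x in N, (max (a x - b x) 0) ^ 2
        ≤ ∫ x in N, (2 * p x ^ 2 + 4 * L * (b (x + h) - b (x + 0))) :=
          integral_mono_ae (hFi.mono_set hNK)
            (((hp2i.mono_set hNK).const_mul 2).add (hB.const_mul _)) key
      _ = 2 * (∫ x in N, p x ^ 2) + 4 * L * ∫ x in N, (b (x + h) - b (x + 0)) := by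
          have i1 : Integrable (fun x => 2 * p x ^ 2) (volume.restrict N) :=
            (hp2i.mono_set hNK).const_mul 2
          have i2 : Integrable (fun x => 4 * L * (b (x + h) - b (x + 0))) (volume.restrict N) :=
            hB.const_mul _
          rw [integral_add i1 i2, integral_const_mul, integral_const_mul]
      _ ≤ _ := by
          refine add_le_add ?_ ?_
          · refine mul_le_mul_of_nonneg_left ?_ (by norm_num)
            exact setIntegral_mono_set hp2i (Filter.Eventually.of_forall fun x => sq_nonneg _)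
              (LE.le.eventuallyLE hNK)
          · refine mul_le_mul_of_nonneg_left ?_ (by positivity)
            exact integral_shift_sub_le hKc hKv hr₀ hball hL hb hbL ht0 ht1 n1 n3
  have c3 : 4 * L * (2 * L * (d * t * volume.real K)) +
    4 * L ^ 2 * (d * t * volume.real K) = 12 * L ^ 2 * (d * t * volume.real K) := by ring
  linarith

lemma integral_uniform (f : E d → ℝ) :
    ∫ x, f x ∂(uniformProbOn K) = (volume.real K)⁻¹ * ∫ x in K, f x := by
  unfold uniformProbOn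
  rw [integral_smul_measure, ENNReal.toReal_inv, smul_eq_mul]
  rfl

lemma integral_pfun_mul (hKc : IsCompact K) {L : ℝ} (hL : 0 ≤ L)
    {a b : E d → ℝ}
    (haL : ∀ᵐ x ∂(volume.restrict K), |a x| ≤ L) (hbL : ∀ᵐ x ∂(volume.restrict K), |b x| ≤ L)
    (r : ℝ) (h : E d) :
    ∫ x in K, pfun K (2 * L) a b h x * (r * (a x - b (x + h))) =
      r * ∫ x in K, pfun K (2 * L) a b h x ^ 2 := by
  have hKm := hKc.measurableSet
  rw [← integral_const_mul]
  refine integral_congr_ae ?_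
  have h1 : ∀ᵐ x ∂(volume.restrict K), x + h ∈ K → |b (x + h)| ≤ L := by
    have h2 : ∀ᵐ x ∂(volume : Measure (E d)), x ∈ K → |b x| ≤ L := (ae_restrict_iff' hKm).1 hbL
    exact ae_restrict_of_ae
      ((measurePreserving_add_right volume h).quasiMeasurePreserving.ae h2)
  filter_upwards [haL, h1, ae_restrict_mem hKm] with x h2 h3 hx
  unfold pfun
  split_ifs with hc
  · have h4 := h3 hc.2
    rw [abs_le] at h2 h4
    have e2 : clip (2 * L) (a x - b (x + h)) = max (a x - b (x + h)) 0 := by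
      rw [clip, min_eq_left]
      exact max_le (by linarith) (by positivity)
    rw [e2]
    rcases le_total (a x - b (x + h)) 0 with h5 | h5
    · rw [max_eq_right h5]; ring
    · rw [max_eq_left h5]; ring
  · ring

lemma one_side (hKc : IsCompact K) (hKv : Convex ℝ K) (hr₀ : 0 < r₀)
    (hball : Metric.closedBall x₀ r₀ ⊆ K) {L : ℝ} (hL : 0 ≤ L)
    {a b : E d → ℝ} (ha : Measurable a) (hb : Measurable b)
    (haL : ∀ᵐ x ∂(volume.restrict K), |a x| ≤ L) (hbL : ∀ᵐ x ∂(volume.restrict K), |b x| ≤ L)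
    {r : ℝ} (hr : 0 < r) (hrr : r ≤ r₀) {h : E d} (hh : ‖h‖ = r)
    (hamono : ∀ᵐ x ∂(volume : Measure (E d)), x ∈ K → x + h ∈ K → a x ≤ a (x + h))
    (hbmono : ∀ᵐ x ∂(volume : Measure (E d)), x ∈ K → x + h ∈ K → b x ≤ b (x + h))
    {C Q : ℝ} (hC : 0 ≤ C) (hQ : 0 ≤ Q)
    (hshift : ∫ x, pfun K (2 * L) a b h x * (r * (a x - b (x + h))) ∂(uniformProbOn K) ≤
      C * Real.sqrt (∫ x, (pfun K (2 * L) a b h (x - h) - pfun K (2 * L) a b h x) ^ 2
        ∂(uniformProbOn K)) * Q) :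
    ∫ x, (max (a x - b x) 0) ^ 2 ∂(uniformProbOn K) ≤
      2 * (C * Real.sqrt (12 * L ^ 2 * d / r₀)) * ((Real.sqrt r)⁻¹ * Q) +
        12 * L ^ 2 * (d / r₀) * r := by
  have hV : 0 < volume.real K := by
    have h1 : 0 < volume (Metric.closedBall x₀ r₀) := Metric.measure_closedBall_pos _ _ hr₀
    exact ENNReal.toReal_pos (lt_of_lt_of_le h1 (measure_mono hball)).ne'
      hKc.measure_lt_top.ne
  rw [integral_uniform, integral_uniform, integral_pfun_mul hKc hL haL hbL] at hshift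
  rw [integral_uniform]
  have c1 := core_one hKc hKv hr₀ hball hL ha hb haL hbL hr hrr hh hamono hbmono
  have c2 := core_two hKc hKv hr₀ hball hL ha hb haL hbL hr hrr hh hbmono
  set V := volume.real K
  set P := ∫ x in K, pfun K (2 * L) a b h x ^ 2
  set D := ∫ x in K, (pfun K (2 * L) a b h (x - h) - pfun K (2 * L) a b h x) ^ 2
  have c3 : V⁻¹ * D ≤ 12 * L ^ 2 * d / r₀ * r := by
    calc V⁻¹ * D ≤ V⁻¹ * (12 * L ^ 2 * (d * (r / r₀) * V)) :=
          mul_le_mul_of_nonneg_left c1 (inv_nonneg.2 hV.le)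
      _ = _ := by field_simp
  have c4 : Real.sqrt (V⁻¹ * D) ≤ Real.sqrt (12 * L ^ 2 * d / r₀) * Real.sqrt r := by
    rw [← Real.sqrt_mul (by positivity)]
    exact Real.sqrt_le_sqrt c3
  have hsr : 0 < Real.sqrt r := Real.sqrt_pos.2 hr
  have c5 : V⁻¹ * P ≤ C * Real.sqrt (12 * L ^ 2 * d / r₀) * ((Real.sqrt r)⁻¹ * Q) := by
    have c6 : r * (V⁻¹ * P) ≤ C * (Real.sqrt (12 * L ^ 2 * d / r₀) * Real.sqrt r) * Q := by
      calc r * (V⁻¹ * P) = V⁻¹ * (r * P) := by ring
        _ ≤ C * Real.sqrt (V⁻¹ * D) * Q := hshift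
        _ ≤ _ := by gcongr
    have c7 : V⁻¹ * P ≤ r⁻¹ * (C * (Real.sqrt (12 * L ^ 2 * d / r₀) * Real.sqrt r) * Q) := by
      rw [le_inv_mul_iff₀ hr]; exact c6
    refine c7.trans (le_of_eq ?_)
    have c8 : r⁻¹ * Real.sqrt r = (Real.sqrt r)⁻¹ := by
      have := Real.mul_self_sqrt hr.le
      field_simp
      nlinarith
    calc _ = C * Real.sqrt (12 * L ^ 2 * d / r₀) * ((r⁻¹ * Real.sqrt r) * Q) := by ring
      _ = _ := by rw [c8]
  calc V⁻¹ * ∫ x in K, (max (a x - b x) 0) ^ 2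
      ≤ V⁻¹ * (2 * P + 12 * L ^ 2 * (d * (r / r₀) * V)) :=
        mul_le_mul_of_nonneg_left c2 (inv_nonneg.2 hV.le)
    _ = 2 * (V⁻¹ * P) + 12 * L ^ 2 * (d / r₀) * r := by field_simp
    _ ≤ 2 * (C * Real.sqrt (12 * L ^ 2 * d / r₀) * ((Real.sqrt r)⁻¹ * Q)) +
        12 * L ^ 2 * (d / r₀) * r := by gcongr
    _ = _ := by ring

end core

/-- from the estimate for all radii to the one third power -/
lemma optimise {A B I q : ℝ} (hB : 0 ≤ B) (hq : 0 ≤ q)
    (h : ∀ r : ℝ, 0 < r → I ≤ A * ((Real.sqrt r)⁻¹ * Real.sqrt q) + B * r) :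
    I ≤ (A + B) * q ^ (1 / 3 : ℝ) := by
  rcases hq.eq_or_lt with h0 | hpos
  · rw [← h0, Real.zero_rpow (by norm_num), mul_zero]
    by_contra hcon
    push Not at hcon
    have h1 := h (I / (2 * (B + 1))) (by positivity)
    rw [← h0, Real.sqrt_zero, mul_zero, mul_zero, zero_add] at h1
    have h2 : B * (I / (2 * (B + 1))) = B / (B + 1) * (I / 2) := by field_simp
    have h3 : B / (B + 1) ≤ 1 := by rw [div_le_one (by positivity)]; linarith
    rw [h2] at h1
    nlinarith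
  · have hr : 0 < q ^ (1 / 3 : ℝ) := Real.rpow_pos_of_pos hpos _
    have h1 := h _ hr
    have h2 : (Real.sqrt (q ^ (1 / 3 : ℝ)))⁻¹ * Real.sqrt q = q ^ (1 / 3 : ℝ) := by
      rw [Real.sqrt_eq_rpow, Real.sqrt_eq_rpow, ← Real.rpow_mul hq, ← Real.rpow_neg hq,
        ← Real.rpow_add hpos]
      norm_num
    rw [h2] at h1
    linarith


lemma ae_uniform_iff {K : Set (E d)} (hKf : volume K ≠ ∞) {P : E d → Prop} :
    (∀ᵐ x ∂(uniformProbOn K), P x) ↔ ∀ᵐ x ∂(volume.restrict K), P x := by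
  unfold uniformProbOn
  exact Measure.ae_ennreal_smul_measure_iff (ENNReal.inv_ne_zero.2 hKf)

lemma ae_mem_of_map {ρ μ : Measure (E d)} {Y : Set (E d)} (hY : MeasurableSet Y)
    (hμ : IsProbabilityOn Y μ) {T : E d → E d} (hT : Measurable T) (hmap : ρ.map T = μ) :
    ∀ᵐ x ∂ρ, T x ∈ Y := by
  have h1 : ρ (T ⁻¹' Yᶜ) = 0 := by
    rw [← Measure.map_apply hT hY.compl, hmap]; exact hμ.2
  rw [ae_iff]
  exact h1

lemma quadCost_swap (π : Measure (E d × E d)) : quadCost (π.map Prod.swap) = quadCost π := by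
  unfold quadCost
  rw [lintegral_map _ measurable_swap]
  · refine lintegral_congr fun p => ?_
    have h1 : ‖p.2 - p.1‖ₑ = ‖p.1 - p.2‖ₑ := by rw [← enorm_neg, neg_sub]
    rw [Prod.fst_swap, Prod.snd_swap, h1]
  · fun_prop

lemma isPairCoupling_swap {μ ν : Measure (E d)} {π : Measure (E d × E d)}
    (h : IsPairCoupling μ ν π) : IsPairCoupling ν μ (π.map Prod.swap) := by
  refine ⟨?_, ?_⟩
  · rw [Measure.map_map measurable_fst measurable_swap]; exact h.2
  · rw [Measure.map_map measurable_snd measurable_swap]; exact h.1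

lemma norm_sq_eq_sum (x : E d) :
    ‖x‖ ^ 2 = ∑ i, (inner ℝ (EuclideanSpace.single i (1 : ℝ)) x) ^ 2 := by
  rw [EuclideanSpace.norm_sq_eq]
  refine Finset.sum_congr rfl fun i _ => ?_
  rw [EuclideanSpace.inner_single_left]
  simp

/-- Part G: the final estimate from the shift monotonicity (F1) and the shift inequality (F2). -/
theorem final_estimate_of (K : Set (E d)) (hKc : IsCompact K) (hKv : Convex ℝ K)
    (hKi : (interior K).Nonempty) (Y : Set (E d)) (hYc : IsCompact Y)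
    (hF1 : ∀ (μ : Measure (E d)), IsProbabilityOn Y μ → ∀ T : E d → E d,
      IsOptimalMap (uniformProbOn K) μ T → ∀ h : E d,
      ∀ᵐ x ∂(volume : Measure (E d)), x ∈ K → x + h ∈ K → 0 ≤ inner ℝ h (T (x + h) - T x))
    (hF2 : ∃ C : ℝ, 0 ≤ C ∧ ∀ (μ ν : Measure (E d)), IsProbabilityOn Y μ → IsProbabilityOn Y ν →
      ∀ (Tμ Tν : E d → E d), IsOptimalMap (uniformProbOn K) μ Tμ →
      IsOptimalMap (uniformProbOn K) ν Tν →
      ∀ (π : Measure (E d × E d)), IsPairCoupling μ ν π → ∀ (h : E d) (p : E d → ℝ),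
      Measurable p → (∀ x, 0 ≤ p x) → (∃ M, ∀ x, p x ≤ M) → (∀ x, p x ≠ 0 → x ∈ K ∧ x + h ∈ K) →
      ∫ x, p x * inner ℝ h (Tμ x - Tν (x + h)) ∂(uniformProbOn K) ≤
        C * Real.sqrt (∫ x, (p (x - h) - p x) ^ 2 ∂(uniformProbOn K)) *
          Real.sqrt (quadCost π).toReal) :
    ∃ C : ℝ≥0, ∀ μ ν : Measure (E d), IsProbabilityOn Y μ → IsProbabilityOn Y ν →
      ∀ Tμ Tν : E d → E d,
        IsOptimalMap (uniformProbOn K) μ Tμ → IsOptimalMap (uniformProbOn K) ν Tν →
        ∀ π : Measure (E d × E d), IsPairCoupling μ ν π →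
          ∫⁻ x, ‖Tμ x - Tν x‖ₑ ^ 2 ∂(uniformProbOn K) ≤ C * quadCost π ^ (1 / 3 : ℝ) := by
  obtain ⟨x₀, hx₀⟩ := hKi
  obtain ⟨r₀, hr₀, hball⟩ :=
    Metric.nhds_basis_closedBall.mem_iff.1 (mem_interior_iff_mem_nhds.1 hx₀)
  obtain ⟨L', hL'⟩ := hYc.isBounded.exists_norm_le
  set L := max L' 0 with hLdef
  have hL : 0 ≤ L := le_max_right _ _
  have hYL : ∀ y ∈ Y, ‖y‖ ≤ L := fun y hy => (hL' y hy).trans (le_max_left _ _)
  obtain ⟨C, hC, hF2⟩ := hF2
  have hKf : volume K ≠ ∞ := hKc.measure_lt_top.ne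
  have hV : 0 < volume.real K := by
    have h1 : 0 < volume (Metric.closedBall x₀ r₀) := Metric.measure_closedBall_pos _ _ hr₀
    exact ENNReal.toReal_pos (lt_of_lt_of_le h1 (measure_mono hball)).ne'
      hKc.measure_lt_top.ne
  set A₁ : ℝ := 2 * (C * Real.sqrt (12 * L ^ 2 * d / r₀)) with hA₁
  set B₁ : ℝ := 12 * L ^ 2 * (d / r₀) with hB₁
  have hA₁0 : 0 ≤ A₁ := by positivity
  have hB₁0 : 0 ≤ B₁ := by positivity
  set A : ℝ := d * (2 * A₁) with hA
  set B : ℝ := d * (2 * B₁) + 4 * L ^ 2 / r₀ with hB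
  have hA0 : 0 ≤ A := by positivity
  have hB0 : 0 ≤ B := by positivity
  refine ⟨(A + B + 1).toNNReal, ?_⟩
  intro μ ν hμ hν Tμ Tν hTμ hTν π hπ
  set ρ := uniformProbOn K with hρ
  -- infinite cost is trivial
  rcases eq_or_ne (quadCost π) ∞ with hinf | hfin
  · rw [hinf, ENNReal.top_rpow_of_pos (by norm_num), ENNReal.mul_top]
    · exact le_top
    · rw [Ne, ENNReal.coe_eq_zero, Real.toNNReal_eq_zero]
      push Not
      positivity
  -- a.e. bounds
  have hYm := hYc.measurableSet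
  have bdμ : ∀ᵐ x ∂(volume.restrict K), ‖Tμ x‖ ≤ L := by
    rw [← ae_uniform_iff hKf]
    filter_upwards [ae_mem_of_map hYm hμ hTμ.1 hTμ.2.1] with x hx using hYL _ hx
  have bdν : ∀ᵐ x ∂(volume.restrict K), ‖Tν x‖ ≤ L := by
    rw [← ae_uniform_iff hKf]
    filter_upwards [ae_mem_of_map hYm hν hTν.1 hTν.2.1] with x hx using hYL _ hx
  have : IsProbabilityMeasure ρ := by
    refine ⟨?_⟩
    rw [hρ, uniformProbOn, Measure.smul_apply, Measure.restrict_apply_univ, smul_eq_mul]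
    refine ENNReal.inv_mul_cancel ?_ hKf
    intro h0
    rw [Measure.real, h0, ENNReal.toReal_zero] at hV
    exact lt_irrefl _ hV
  have hρV : ∀ {f : E d → ℝ} {M : ℝ}, Measurable f →
      (∀ᵐ x ∂(volume.restrict K), |f x| ≤ M) → Integrable f ρ := by
    intro f M hf hM
    refine Integrable.mono' (g := fun _ => M) (integrable_const M) hf.aestronglyMeasurable ?_
    rw [ae_uniform_iff hKf]
    filter_upwards [hM] with x hx
    rwa [Real.norm_eq_abs]
  have hsm : ∀ {T : E d → E d}, Measurable T → ∀ i : Fin d,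
      Measurable (fun x => inner ℝ (EuclideanSpace.single i (1 : ℝ)) (T x)) :=
    fun hT i => measurable_const.inner hT
  have hsb : ∀ {T : E d → E d}, (∀ᵐ x ∂(volume.restrict K), ‖T x‖ ≤ L) → ∀ i : Fin d,
      ∀ᵐ x ∂(volume.restrict K), |inner ℝ (EuclideanSpace.single i (1 : ℝ)) (T x)| ≤ L := by
    intro T hT i
    filter_upwards [hT] with x hx
    calc |inner ℝ (EuclideanSpace.single i (1 : ℝ)) (T x)|
        ≤ ‖(EuclideanSpace.single i (1 : ℝ) : E d)‖ * ‖T x‖ := abs_real_inner_le_norm _ _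
      _ ≤ L := by simpa using hx
  set q := (quadCost π).toReal with hq
  have hq0 : 0 ≤ q := ENNReal.toReal_nonneg
  -- one side, small radii
  have hside : ∀ (μ ν : Measure (E d)), IsProbabilityOn Y μ → IsProbabilityOn Y ν →
      ∀ (Tμ Tν : E d → E d), IsOptimalMap ρ μ Tμ → IsOptimalMap ρ ν Tν →
      (∀ᵐ x ∂(volume.restrict K), ‖Tμ x‖ ≤ L) → (∀ᵐ x ∂(volume.restrict K), ‖Tν x‖ ≤ L) →
      ∀ (π : Measure (E d × E d)), IsPairCoupling μ ν π → ∀ (i : Fin d) (r : ℝ), 0 < r → r ≤ r₀ →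
      ∫ x, (max (inner ℝ (EuclideanSpace.single i (1 : ℝ)) (Tμ x) -
        inner ℝ (EuclideanSpace.single i (1 : ℝ)) (Tν x)) 0) ^ 2 ∂ρ ≤
        A₁ * ((Real.sqrt r)⁻¹ * Real.sqrt (quadCost π).toReal) + B₁ * r := by
    intro μ ν hμ hν Tμ Tν hTμ hTν bdμ bdν π hπ i r hr hrr
    set e : E d := EuclideanSpace.single i (1 : ℝ) with he
    have hen : ‖e‖ = 1 := by simp [he]
    set h : E d := r • e with hh
    have hhn : ‖h‖ = r := by rw [hh, norm_smul, hen, Real.norm_eq_abs, abs_of_pos hr, mul_one]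
    have mono : ∀ {μ : Measure (E d)}, IsProbabilityOn Y μ → ∀ {T : E d → E d},
        IsOptimalMap ρ μ T →
        ∀ᵐ x ∂(volume : Measure (E d)), x ∈ K → x + h ∈ K →
          inner ℝ e (T x) ≤ inner ℝ e (T (x + h)) := by
      intro μ hμ T hT
      filter_upwards [hF1 μ hμ T hT h] with x hx h1 h2
      have h3 := hx h1 h2
      rw [hh, inner_smul_left, inner_sub_right] at h3
      simp only [conj_trivial] at h3
      have h4 := nonneg_of_mul_nonneg_right h3 hr
      rw [← hh] at h4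
      linarith
    have hs := hF2 μ ν hμ hν Tμ Tν hTμ hTν π hπ h
      (pfun K (2 * L) (fun x => inner ℝ e (Tμ x)) (fun x => inner ℝ e (Tν x)) h)
      (measurable_pfun hKc.measurableSet (hsm hTμ.1 i) (hsm hTν.1 i) h)
      (pfun_nonneg (by positivity) _ _ _) ⟨2 * L, pfun_le (by positivity) _ _ _⟩
      (by
        intro x hx
        by_contra hcon
        exact hx (by unfold pfun; rw [if_neg hcon]))
    have hs' : ∫ x, pfun K (2 * L) (fun x => inner ℝ e (Tμ x)) (fun x => inner ℝ e (Tν x)) h x *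
        (r * ((fun x => inner ℝ e (Tμ x)) x - (fun x => inner ℝ e (Tν x)) (x + h)))
          ∂(uniformProbOn K) ≤
        C * Real.sqrt (∫ x, (pfun K (2 * L) (fun x => inner ℝ e (Tμ x))
          (fun x => inner ℝ e (Tν x)) h (x - h) - pfun K (2 * L) (fun x => inner ℝ e (Tμ x))
          (fun x => inner ℝ e (Tν x)) h x) ^ 2 ∂(uniformProbOn K)) *
          Real.sqrt (quadCost π).toReal := by
      refine le_trans (le_of_eq ?_) hs
      refine integral_congr_ae (Filter.Eventually.of_forall fun x => ?_)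
      simp only
      rw [hh, inner_smul_left, inner_sub_right]
      simp
    exact one_side hKc hKv hr₀ hball hL (hsm hTμ.1 i) (hsm hTν.1 i) (hsb bdμ i) (hsb bdν i)
      hr hrr hhn (mono hμ hTμ) (mono hν hTν) hC (Real.sqrt_nonneg _) hs'
  -- full estimate, all radii
  have hint : ∀ i : Fin d, Integrable (fun x =>
      (inner ℝ (EuclideanSpace.single i (1 : ℝ)) (Tμ x - Tν x)) ^ 2) ρ := by
    intro i
    refine hρV (M := (2 * L) ^ 2) ((hsm (hTμ.1.sub hTν.1) i).pow_const 2) ?_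
    filter_upwards [hsb bdμ i, hsb bdν i] with x h1 h2
    rw [abs_of_nonneg (sq_nonneg _), inner_sub_right]
    rw [abs_le] at h1 h2
    apply sq_le_sq'
    · linarith
    · linarith
  have hnorm : Integrable (fun x => ‖Tμ x - Tν x‖ ^ 2) ρ := by
    simp_rw [norm_sq_eq_sum]
    exact integrable_finsetSum _ fun i _ => hint i
  have hall : ∀ r : ℝ, 0 < r → ∫ x, ‖Tμ x - Tν x‖ ^ 2 ∂ρ ≤
      A * ((Real.sqrt r)⁻¹ * Real.sqrt q) + B * r := by
    intro r hr
    rcases le_total r r₀ with hrr | hrr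
    · have h1 : ∫ x, ‖Tμ x - Tν x‖ ^ 2 ∂ρ = ∑ i : Fin d, ∫ x,
          (inner ℝ (EuclideanSpace.single i (1 : ℝ)) (Tμ x - Tν x)) ^ 2 ∂ρ := by
        simp_rw [norm_sq_eq_sum]
        rw [integral_finsetSum]
        intro i _
        exact hint i
      have h2 : ∀ i : Fin d, ∫ x,
          (inner ℝ (EuclideanSpace.single i (1 : ℝ)) (Tμ x - Tν x)) ^ 2 ∂ρ ≤
          2 * A₁ * ((Real.sqrt r)⁻¹ * Real.sqrt q) + 2 * B₁ * r := by
        intro i
        have g1 := hside μ ν hμ hν Tμ Tν hTμ hTν bdμ bdν π hπ i r hr hrr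
        have g2 := hside ν μ hν hμ Tν Tμ hTν hTμ bdν bdμ _ (isPairCoupling_swap hπ) i r hr hrr
        rw [quadCost_swap] at g2
        have i1 : Integrable (fun x => (max (inner ℝ (EuclideanSpace.single i (1 : ℝ)) (Tμ x) -
            inner ℝ (EuclideanSpace.single i (1 : ℝ)) (Tν x)) 0) ^ 2) ρ := by
          refine hρV (M := (2 * L) ^ 2)
            ((((hsm hTμ.1 i).sub (hsm hTν.1 i)).max measurable_const).pow_const 2) ?_
          filter_upwards [hsb bdμ i, hsb bdν i] with x h1 h2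
          rw [abs_of_nonneg (sq_nonneg _)]
          rw [abs_le] at h1 h2
          exact pow_le_pow_left₀ (le_max_right _ _) (max_le (by linarith) (by linarith)) 2
        have i2 : Integrable (fun x => (max (inner ℝ (EuclideanSpace.single i (1 : ℝ)) (Tν x) -
            inner ℝ (EuclideanSpace.single i (1 : ℝ)) (Tμ x)) 0) ^ 2) ρ := by
          refine hρV (M := (2 * L) ^ 2)
            ((((hsm hTν.1 i).sub (hsm hTμ.1 i)).max measurable_const).pow_const 2) ?_
          filter_upwards [hsb bdμ i, hsb bdν i] with x h1 h2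
          rw [abs_of_nonneg (sq_nonneg _)]
          rw [abs_le] at h1 h2
          exact pow_le_pow_left₀ (le_max_right _ _) (max_le (by linarith) (by linarith)) 2
        have g3 : ∫ x, (inner ℝ (EuclideanSpace.single i (1 : ℝ)) (Tμ x - Tν x)) ^ 2 ∂ρ =
            (∫ x, (max (inner ℝ (EuclideanSpace.single i (1 : ℝ)) (Tμ x) -
            inner ℝ (EuclideanSpace.single i (1 : ℝ)) (Tν x)) 0) ^ 2 ∂ρ) +
            ∫ x, (max (inner ℝ (EuclideanSpace.single i (1 : ℝ)) (Tν x) -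
            inner ℝ (EuclideanSpace.single i (1 : ℝ)) (Tμ x)) 0) ^ 2 ∂ρ := by
          rw [← integral_add i1 i2]
          refine integral_congr_ae (Filter.Eventually.of_forall fun x => ?_)
          simp only
          rw [inner_sub_right]
          set s := inner ℝ (EuclideanSpace.single i (1 : ℝ)) (Tμ x)
          set u := inner ℝ (EuclideanSpace.single i (1 : ℝ)) (Tν x)
          rcases le_total s u with hsu | hsu
          · rw [max_eq_right (by linarith : s - u ≤ 0), max_eq_left (by linarith : 0 ≤ u - s)]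
            ring
          · rw [max_eq_left (by linarith : 0 ≤ s - u), max_eq_right (by linarith : u - s ≤ 0)]
            ring
        rw [g3]
        linarith
      rw [h1]
      calc _ ≤ ∑ i : Fin d, (2 * A₁ * ((Real.sqrt r)⁻¹ * Real.sqrt q) + 2 * B₁ * r) :=
            Finset.sum_le_sum fun i _ => h2 i
        _ = d * (2 * A₁) * ((Real.sqrt r)⁻¹ * Real.sqrt q) + d * (2 * B₁) * r := by
            rw [Finset.sum_const, Finset.card_univ, Fintype.card_fin, nsmul_eq_mul]; ring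
        _ ≤ A * ((Real.sqrt r)⁻¹ * Real.sqrt q) + B * r := by
            have : 0 ≤ 4 * L ^ 2 / r₀ * r := by positivity
            rw [hA, hB]
            linarith
    · have h1 : ∫ x, ‖Tμ x - Tν x‖ ^ 2 ∂ρ ≤ ∫ _x, (2 * L) ^ 2 ∂ρ := by
        refine integral_mono_ae hnorm (integrable_const _) ?_
        rw [Filter.EventuallyLE, ae_uniform_iff hKf]
        filter_upwards [bdμ, bdν] with x h1 h2
        exact pow_le_pow_left₀ (norm_nonneg _) ((norm_sub_le _ _).trans (by linarith)) 2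
      rw [integral_const, probReal_univ, one_smul] at h1
      have h2 : (2 * L) ^ 2 ≤ 4 * L ^ 2 / r₀ * r := by
        rw [div_mul_eq_mul_div, le_div_iff₀ hr₀]
        have : (2 * L) ^ 2 = 4 * L ^ 2 := by ring
        rw [this]
        exact mul_le_mul_of_nonneg_left hrr (by positivity)
      have h3 : 0 ≤ A * ((Real.sqrt r)⁻¹ * Real.sqrt q) := by positivity
      have h4 : 0 ≤ d * (2 * B₁) * r := by positivity
      rw [hB]
      linarith
  have hfinal := optimise hB0 hq0 hall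
  -- conversion to extended nonnegative reals
  have hconv : ∫⁻ x, ‖Tμ x - Tν x‖ₑ ^ 2 ∂ρ = ENNReal.ofReal (∫ x, ‖Tμ x - Tν x‖ ^ 2 ∂ρ) := by
    rw [ofReal_integral_eq_lintegral_ofReal hnorm (Filter.Eventually.of_forall fun x => by positivity)]
    refine lintegral_congr fun x => ?_
    rw [ENNReal.ofReal_pow (norm_nonneg _), ofReal_norm]
  rw [hconv]
  have hq' : quadCost π = ENNReal.ofReal q := (ENNReal.ofReal_toReal hfin).symm
  rw [hq', ENNReal.ofReal_rpow_of_nonneg hq0 (by norm_num)]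
  have hcoe : (((A + B + 1).toNNReal : ℝ≥0) : ℝ≥0∞) = ENNReal.ofReal (A + B + 1) := rfl
  rw [hcoe, ← ENNReal.ofReal_mul (by positivity)]
  refine ENNReal.ofReal_le_ofReal (hfinal.trans ?_)
  refine mul_le_mul_of_nonneg_right (by linarith) (Real.rpow_nonneg hq0 _)

end Crest.Agent.R082.Final
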