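import Crest.Agent.R082.Defs

-- ▼ part R082/ShiftBasic
section

/-!
Row 82: basic facts used by the shift argument (uniform probability on a convex body,
translations, elementary bounds for `phi`, `Kfun`).
-/

set_option autoImplicit false

open MeasureTheory
open scoped ENNReal NNReal
open Crest.AnalysisR.OT

namespace Crest.Agent.R082.Sh

variable {d : ℕ}

section Unif

variable {K : Set (E d)}

lemma vol_pos (hKi : (interior K).Nonempty) : 0 < volume K :=
  Measure.measure_pos_of_nonempty_interior _ hKi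

lemma vol_lt_top (hKc : IsCompact K) : volume K < ⊤ := hKc.measure_lt_top

lemma isProb_unif (hKc : IsCompact K) (hKi : (interior K).Nonempty) :
    IsProbabilityMeasure (uniformProbOn K) := by
  constructor
  unfold uniformProbOn
  rw [Measure.smul_apply, Measure.restrict_apply_univ, smul_eq_mul]
  exact ENNReal.inv_mul_cancel (vol_pos hKi).ne' (vol_lt_top hKc).ne

lemma ae_mem_unif (hKc : IsCompact K) : ∀ᵐ x ∂(uniformProbOn K), x ∈ K := by
  unfold uniformProbOn
  exact Measure.ae_smul_measure (ae_restrict_mem hKc.measurableSet) _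


/-- a.e. statements for the uniform probability, in terms of Lebesgue measure. -/
lemma ae_unif_iff (hKc : IsCompact K) {P : E d → Prop} :
    (∀ᵐ x ∂(uniformProbOn K), P x) ↔ ∀ᵐ x ∂(volume : Measure (E d)), x ∈ K → P x := by
  unfold uniformProbOn
  rw [Measure.ae_ennreal_smul_measure_iff (ENNReal.inv_ne_zero.mpr (vol_lt_top hKc).ne),
    ae_restrict_iff' hKc.measurableSet]

lemma ae_unif_shift (hKc : IsCompact K) {P : E d → Prop} (h : E d)
    (hP : ∀ᵐ x ∂(uniformProbOn K), P x) :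
    ∀ᵐ x ∂(volume : Measure (E d)), x + h ∈ K → P (x + h) := by
  rw [ae_unif_iff hKc] at hP
  exact (measurePreserving_add_right volume h).quasiMeasurePreserving.ae hP

lemma integral_unif (f : E d → ℝ) :
    ∫ x, f x ∂(uniformProbOn K) = (volume K).toReal⁻¹ * ∫ x in K, f x := by
  unfold uniformProbOn
  rw [integral_smul_measure, smul_eq_mul, ENNReal.toReal_inv]

lemma integral_unif_of_supp {f : E d → ℝ} (hf : ∀ x, f x ≠ 0 → x ∈ K) :
    ∫ x, f x ∂(uniformProbOn K) = (volume K).toReal⁻¹ * ∫ x, f x := by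
  rw [integral_unif, setIntegral_eq_integral_of_forall_compl_eq_zero]
  intro x hx
  by_contra h
  exact hx (hf x h)

lemma integral_unif_shift {f : E d → ℝ} (h : E d) (hf : ∀ x, f x ≠ 0 → x ∈ K ∧ x + h ∈ K) :
    ∫ x, f (x - h) ∂(uniformProbOn K) = ∫ x, f x ∂(uniformProbOn K) := by
  rw [integral_unif_of_supp (f := fun x => f (x - h)), integral_unif_of_supp (f := f),
    integral_sub_right_eq_self f h]
  · intro x hx; exact (hf x hx).1
  · intro x hx
    have := (hf (x - h) hx).2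
    simpa using this

lemma integrable_unif (hKc : IsCompact K) (hKi : (interior K).Nonempty) {f : E d → ℝ}
    (hf : Measurable f) (C : ℝ) (hC : ∀ x ∈ K, |f x| ≤ C) : Integrable f (uniformProbOn K) := by
  have := isProb_unif hKc hKi
  refine Integrable.of_bound hf.aestronglyMeasurable C ?_
  filter_upwards [ae_mem_unif hKc] with x hx
  exact hC x hx

end Unif

section Phi

variable {ι : Type} [Fintype ι] [Nonempty ι]

lemma le_phi (y : ι → E d) (ψ : ι → ℝ) (x : E d) (i : ι) : inner ℝ x (y i) - ψ i ≤ phi y ψ x := by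
  unfold phi
  exact Finset.le_sup' (fun i => inner ℝ x (y i) - ψ i) (Finset.mem_univ i)

lemma phi_le {y : ι → E d} {ψ : ι → ℝ} {x : E d} {c : ℝ} (h : ∀ i, inner ℝ x (y i) - ψ i ≤ c) :
    phi y ψ x ≤ c := by
  unfold phi
  exact Finset.sup'_le _ _ (fun i _ => h i)

lemma continuous_phi (y : ι → E d) (ψ : ι → ℝ) : Continuous (phi y ψ) := by
  unfold phi
  exact Continuous.finset_sup'_apply _ (fun i _ => by fun_prop)

end Phi

section Simple

/-- Approximation of the identity on a compact set by a simple function. -/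
lemma exists_simple {Y : Set (E d)} (hYc : IsCompact Y) (hYn : Y.Nonempty) {δ : ℝ} (hδ : 0 < δ) :
    ∃ τ : SimpleFunc (E d) (E d), ∀ w ∈ Y, ‖w - τ w‖ ≤ δ := by
  obtain ⟨t, htY, htf, hcov⟩ := hYc.finite_cover_balls hδ
  obtain ⟨n, f, -, rfl⟩ := htf.fin_param
  obtain ⟨y0, hy0⟩ := hYn
  refine ⟨SimpleFunc.nearestPt (fun k => if h : k < n then f ⟨k, h⟩ else y0) n, ?_⟩
  intro w hw
  have := hcov hw
  simp only [Set.mem_iUnion, Metric.mem_ball, exists_prop] at this
  obtain ⟨x, ⟨⟨k, hk⟩, rfl⟩, hx⟩ := this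
  have h1 := SimpleFunc.edist_nearestPt_le (fun k => if h : k < n then f ⟨k, h⟩ else y0) w
    (le_of_lt hk)
  simp only [hk, dif_pos] at h1
  have h2 : dist (SimpleFunc.nearestPt (fun k => if h : k < n then f ⟨k, h⟩ else y0) n w) w ≤
      dist (f ⟨k, hk⟩) w := by
    rw [edist_dist, edist_dist] at h1
    exact (ENNReal.ofReal_le_ofReal_iff dist_nonneg).1 h1
  rw [← dist_eq_norm, dist_comm]
  refine h2.trans ?_
  rw [dist_comm]
  exact hx.le

end Simple

end Crest.Agent.R082.Sh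
end

-- ▼ part R082/ShiftPkg
section

/-!
Row 82: the gap package used by the shift argument.
-/

set_option autoImplicit false

open MeasureTheory
open scoped ENNReal NNReal
open Crest.AnalysisR.OT

namespace Crest.Agent.R082.Sh

variable {d : ℕ}

/-- The conclusion of the gap statement (part E2) for fixed data. -/
def GapStmt (K : Set (E d)) (R : ℝ) (μ : Measure (E d)) (T : E d → E d) : Prop :=
  ∀ (ι : Type) [Fintype ι] [Nonempty ι]
    (B : ι → Set (E d)) (_ : ∀ i, MeasurableSet (B i))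
    (_ : ∀ i j, i ≠ j → Disjoint (B i) (B j)) (_ : μ (⋃ i, B i)ᶜ = 0)
    (_ : ∀ i, 0 < μ.real (B i)) (y : ι → E d) (_ : Function.Injective y) (δ : ℝ) (_ : 0 ≤ δ)
    (_ : ∀ i, ∀ w ∈ B i, ‖w - y i‖ ≤ δ),
    ∃ ψ : ι → ℝ, (∀ ψ' : ι → ℝ, Kfun (uniformProbOn K) (fun i => μ.real (B i)) y ψ ≤
        Kfun (uniformProbOn K) (fun i => μ.real (B i)) y ψ') ∧
      Kfun (uniformProbOn K) (fun i => μ.real (B i)) y ψ ≤
        (∑ i, ∫ x in T ⁻¹' (B i), inner ℝ x (y i) ∂(uniformProbOn K)) + 2 * R * δ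

section Pkg

variable {K Y : Set (E d)} {R : ℝ} {μ : Measure (E d)} {T : E d → E d}

lemma ae_T_mem (hμ : IsProbabilityOn Y μ) (hT : Measurable T)
    (hTm : (uniformProbOn K).map T = μ) : ∀ᵐ x ∂(uniformProbOn K), T x ∈ Y := by
  have h : ∀ᵐ w ∂((uniformProbOn K).map T), w ∈ Y := by
    rw [hTm, ae_iff]
    exact hμ.2
  exact ae_of_ae_map hT.aemeasurable h

lemma ae_piece (hYc : IsCompact Y) (hμ : IsProbabilityOn Y μ) (τ : SimpleFunc (E d) (E d)) :
    ∀ᵐ w ∂μ, w ∈ Y ∧ 0 < μ.real (τ ⁻¹' {τ w} ∩ Y) := by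
  have := hμ.1
  have h1 : ∀ᵐ w ∂μ, w ∈ Y := by rw [ae_iff]; exact hμ.2
  have h2 : ∀ᵐ w ∂μ, ∀ v ∈ τ.range, μ (τ ⁻¹' {v} ∩ Y) = 0 → w ∉ τ ⁻¹' {v} ∩ Y := by
    rw [Filter.eventually_all_finset]
    intro v _
    by_cases hv : μ (τ ⁻¹' {v} ∩ Y) = 0
    · have : ∀ᵐ w ∂μ, w ∉ τ ⁻¹' {v} ∩ Y := by
        rw [ae_iff]
        simp only [not_not]
        exact hv
      filter_upwards [this] with w hw _ using hw
    · filter_upwards with w h using absurd h hv
  filter_upwards [h1, h2] with w hw1 hw2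
  refine ⟨hw1, ?_⟩
  rw [measureReal_def, ENNReal.toReal_pos_iff]
  refine ⟨pos_iff_ne_zero.2 fun h0 => hw2 (τ w) (τ.mem_range_self w) h0 ⟨rfl, hw1⟩, measure_lt_top _ _⟩

lemma measurable_comp_simple (τ : SimpleFunc (E d) (E d)) (hT : Measurable T) {β : Type}
    [MeasurableSpace β] (Ψ : E d → β) : Measurable fun x => Ψ (τ (T x)) :=
  ((τ.map Ψ).measurable).comp hT

lemma bdd_comp_simple (τ : SimpleFunc (E d) (E d)) (Ψ : E d → ℝ) : ∃ C, ∀ x, |Ψ (τ x)| ≤ C := by
  obtain ⟨C, hC⟩ := (τ.range.image fun v => |Ψ v|).exists_le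
  exact ⟨C, fun x => hC _ (Finset.mem_image_of_mem _ (τ.mem_range_self x))⟩

lemma sum_setIntegral {ρ : Measure (E d)} (hYc : IsCompact Y) (hT : Measurable T)
    (τ : SimpleFunc (E d) (E d)) (s : Finset (E d)) (G : E d → E d → ℝ)
    (hG : ∀ v ∈ s, Integrable (fun x => G x v) ρ)
    (hA : ∀ᵐ x ∂ρ, T x ∈ Y ∧ τ (T x) ∈ s) :
    ∑ i : s, ∫ x in T ⁻¹' (τ ⁻¹' {i.1} ∩ Y), G x i.1 ∂ρ = ∫ x, G x (τ (T x)) ∂ρ := by
  classical
  have hBm : ∀ i : s, MeasurableSet (T ⁻¹' (τ ⁻¹' {i.1} ∩ Y)) := fun i =>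
    hT ((τ.measurableSet_fiber i.1).inter hYc.measurableSet)
  have h1 : ∀ i : s, ∫ x in T ⁻¹' (τ ⁻¹' {i.1} ∩ Y), G x i.1 ∂ρ =
      ∫ x, (T ⁻¹' (τ ⁻¹' {i.1} ∩ Y)).indicator (fun x => G x i.1) x ∂ρ := fun i =>
    (integral_indicator (hBm i)).symm
  rw [Finset.sum_congr rfl (fun i _ => h1 i), ← integral_finsetSum]
  · apply integral_congr_ae
    filter_upwards [hA] with x hx
    rw [Finset.sum_eq_single (⟨τ (T x), hx.2⟩ : s)]
    · rw [Set.indicator_of_mem]
      exact ⟨rfl, hx.1⟩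
    · intro b _ hb
      apply Set.indicator_of_notMem
      rintro ⟨h2, _⟩
      apply hb
      apply Subtype.ext
      exact (Set.mem_singleton_iff.1 h2).symm
    · intro h; exact absurd (Finset.mem_univ _) h
  · intro i _
    exact (hG i.1 i.2).indicator (hBm i)

/-- The gap package. -/
theorem pkg (hKc : IsCompact K) (hKi : (interior K).Nonempty) (hYc : IsCompact Y)
    (hμ : IsProbabilityOn Y μ) (hT : Measurable T)
    (hTm : (uniformProbOn K).map T = μ) (hgap : GapStmt K R μ T)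
    (τ : SimpleFunc (E d) (E d)) {δ : ℝ} (hδ : 0 ≤ δ) (hτ : ∀ w ∈ Y, ‖w - τ w‖ ≤ δ) :
    ∃ Ψ φ : E d → ℝ, Continuous φ ∧
      (∀ v, 0 < μ.real (τ ⁻¹' {v} ∩ Y) → ∀ x, inner ℝ x v - Ψ v ≤ φ x) ∧
      ∫ x, φ x ∂(uniformProbOn K) + ∫ x, Ψ (τ (T x)) ∂(uniformProbOn K) ≤
        ∫ x, inner ℝ x (τ (T x)) ∂(uniformProbOn K) + 2 * R * δ := by
  classical
  have hρ := isProb_unif hKc hKi
  have hμP := hμ.1
  set ρ := uniformProbOn K with hρdef
  set s : Finset (E d) := τ.range.filter (fun v => 0 < μ.real (τ ⁻¹' {v} ∩ Y)) with hs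
  have hmem : ∀ {v : E d}, v ∈ s ↔ v ∈ τ.range ∧ 0 < μ.real (τ ⁻¹' {v} ∩ Y) := by
    intro v; rw [hs, Finset.mem_filter]
  have hae := ae_piece hYc hμ τ
  have hne : Nonempty s := by
    obtain ⟨w, hw⟩ := hae.exists
    exact ⟨⟨τ w, hmem.2 ⟨τ.mem_range_self w, hw.2⟩⟩⟩
  have hBm : ∀ i : s, MeasurableSet (τ ⁻¹' {i.1} ∩ Y) := fun i =>
    (τ.measurableSet_fiber i.1).inter hYc.measurableSet
  obtain ⟨ψ, -, hψ⟩ := hgap s (fun i => τ ⁻¹' {i.1} ∩ Y) hBm
    (by
      intro i j hij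
      rw [Set.disjoint_left]
      rintro w ⟨h1, _⟩ ⟨h2, _⟩
      apply hij
      apply Subtype.ext
      rw [Set.mem_preimage, Set.mem_singleton_iff] at h1 h2
      rw [← h1, ← h2])
    (by
      rw [← mem_ae_iff]
      filter_upwards [hae] with w hw
      exact Set.mem_iUnion.2 ⟨⟨τ w, hmem.2 ⟨τ.mem_range_self w, hw.2⟩⟩, rfl, hw.1⟩)
    (fun i => (hmem.1 i.2).2) (fun i => i.1) Subtype.val_injective δ hδ
    (by
      rintro i w ⟨h1, h2⟩
      rw [Set.mem_preimage, Set.mem_singleton_iff] at h1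
      rw [← h1]
      exact hτ w h2)
  have haeT : ∀ᵐ x ∂ρ, T x ∈ Y ∧ τ (T x) ∈ s := by
    rw [← hTm] at hae
    filter_upwards [ae_of_ae_map hT.aemeasurable hae] with x hx
    rw [hTm] at hx
    exact ⟨hx.1, hmem.2 ⟨τ.mem_range_self _, hx.2⟩⟩
  refine ⟨fun v => if h : v ∈ s then ψ ⟨v, h⟩ else 0, phi (fun i : s => i.1) ψ,
    continuous_phi _ _, ?_, ?_⟩
  · intro v hv x
    have hvs : v ∈ s := by
      refine hmem.2 ⟨?_, hv⟩
      by_contra hr
      have : τ ⁻¹' {v} = ∅ := by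
        rw [Set.eq_empty_iff_forall_notMem]
        intro w hw
        apply hr
        rw [← Set.mem_singleton_iff.1 hw]
        exact τ.mem_range_self w
      rw [this, Set.empty_inter] at hv
      simp at hv
    simp only [dif_pos hvs]
    exact le_phi (fun i : s => i.1) ψ x ⟨v, hvs⟩
  · have e1 := sum_setIntegral (ρ := ρ) hYc hT τ s (fun x v => inner ℝ x v)
      (by
        intro v _
        obtain ⟨C, hC⟩ := hKc.isBounded.exists_norm_le
        refine integrable_unif hKc hKi (by fun_prop) (C * ‖v‖) ?_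
        intro x hx
        exact (abs_real_inner_le_norm x v).trans (mul_le_mul_of_nonneg_right (hC x hx) (norm_nonneg _)))
      haeT
    have e2 := sum_setIntegral (ρ := ρ) hYc hT τ s (fun _ v => if h : v ∈ s then ψ ⟨v, h⟩ else 0)
      (fun v _ => integrable_const _) haeT
    rw [← e1, ← e2]
    have e3 : ∀ i : s, ∫ _ in T ⁻¹' (τ ⁻¹' {i.1} ∩ Y), (if h : i.1 ∈ s then ψ ⟨i.1, h⟩ else 0) ∂ρ =
        μ.real (τ ⁻¹' {i.1} ∩ Y) * ψ i := by
      intro i
      rw [setIntegral_const, dif_pos i.2, smul_eq_mul]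
      congr 1
      rw [measureReal_def, measureReal_def, ← hTm, Measure.map_apply hT (hBm i)]
    rw [Finset.sum_congr rfl (fun i _ => e3 i)]
    exact hψ

end Pkg

end Crest.Agent.R082.Sh
end

-- ▼ part R082/ShiftMono
section

/-!
Row 82: monotonicity of optimal maps under shifts (part F1).
-/

set_option autoImplicit false

open MeasureTheory
open scoped ENNReal NNReal
open Crest.AnalysisR.OT

namespace Crest.Agent.R082.Sh

variable {d : ℕ}

section Mono

variable {K Y : Set (E d)} {R : ℝ} {μ : Measure (E d)} {T : E d → E d}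

/-- The gap function. -/
noncomputable def gapf (Ψ φ : E d → ℝ) (τ : SimpleFunc (E d) (E d)) (T : E d → E d) (x : E d) : ℝ :=
  φ x + Ψ (τ (T x)) - inner ℝ x (τ (T x))

lemma measurable_gapf {Ψ φ : E d → ℝ} (hφ : Continuous φ) (τ : SimpleFunc (E d) (E d))
    (hT : Measurable T) : Measurable (gapf Ψ φ τ T) := by
  unfold gapf
  have h1 := measurable_comp_simple τ hT Ψ
  have h2 : Measurable fun x => τ (T x) := τ.measurable.comp hT
  have h3 := hφ.measurable
  exact (h3.add h1).sub (measurable_id.inner h2)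

lemma bdd_gapf (hKc : IsCompact K) {Ψ φ : E d → ℝ} (hφ : Continuous φ)
    (τ : SimpleFunc (E d) (E d)) : ∃ C, ∀ x ∈ K, |gapf Ψ φ τ T x| ≤ C := by
  obtain ⟨C1, hC1⟩ := hKc.exists_bound_of_continuousOn hφ.continuousOn
  obtain ⟨C2, hC2⟩ := bdd_comp_simple τ Ψ
  obtain ⟨C3, hC3⟩ := bdd_comp_simple τ (fun v => ‖v‖)
  obtain ⟨C4, hC4⟩ := hKc.isBounded.exists_norm_le
  refine ⟨C1 + C2 + C4 * C3, fun x hx => ?_⟩
  unfold gapf
  have h1 := hC1 x hx
  rw [Real.norm_eq_abs] at h1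
  have h2 := hC2 (T x)
  have h3 : |inner ℝ x (τ (T x))| ≤ C4 * C3 := by
    have h4 := hC3 (T x)
    rw [abs_norm] at h4
    exact (abs_real_inner_le_norm _ _).trans (mul_le_mul (hC4 x hx) h4 (norm_nonneg _)
      ((norm_nonneg _).trans (hC4 x hx)))
  calc |φ x + Ψ (τ (T x)) - inner ℝ x (τ (T x))|
      ≤ |φ x + Ψ (τ (T x))| + |inner ℝ x (τ (T x))| := abs_sub _ _
    _ ≤ |φ x| + |Ψ (τ (T x))| + |inner ℝ x (τ (T x))| := by gcongr; exact abs_add_le _ _
    _ ≤ C1 + C2 + C4 * C3 := by gcongr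

lemma gapf_integral_le (hKc : IsCompact K) (hKi : (interior K).Nonempty) {Ψ φ : E d → ℝ}
    (hφ : Continuous φ) (τ : SimpleFunc (E d) (E d)) (hT : Measurable T) {η : ℝ}
    (h : ∫ x, φ x ∂(uniformProbOn K) + ∫ x, Ψ (τ (T x)) ∂(uniformProbOn K) ≤
        ∫ x, inner ℝ x (τ (T x)) ∂(uniformProbOn K) + η) :
    ∫ x, gapf Ψ φ τ T x ∂(uniformProbOn K) ≤ η := by
  have hρ := isProb_unif hKc hKi
  have i1 : Integrable φ (uniformProbOn K) := by
    obtain ⟨C1, hC1⟩ := hKc.exists_bound_of_continuousOn hφ.continuousOn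
    exact integrable_unif hKc hKi hφ.measurable C1 hC1
  have i2 : Integrable (fun x => Ψ (τ (T x))) (uniformProbOn K) := by
    obtain ⟨C2, hC2⟩ := bdd_comp_simple τ Ψ
    exact integrable_unif hKc hKi (measurable_comp_simple τ hT Ψ) C2 (fun x _ => hC2 _)
  have i3 : Integrable (fun x => inner ℝ x (τ (T x))) (uniformProbOn K) := by
    obtain ⟨C3, hC3⟩ := bdd_comp_simple τ (fun v => ‖v‖)
    obtain ⟨C4, hC4⟩ := hKc.isBounded.exists_norm_le
    have hm : Measurable fun x => τ (T x) := τ.measurable.comp hT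
    refine integrable_unif hKc hKi (by fun_prop) (C4 * C3) (fun x hx => ?_)
    have h4 := hC3 (T x)
    rw [abs_norm] at h4
    exact (abs_real_inner_le_norm _ _).trans (mul_le_mul (hC4 x hx) h4 (norm_nonneg _)
      ((norm_nonneg _).trans (hC4 x hx)))
  have i12 : Integrable (fun x => φ x + Ψ (τ (T x))) (uniformProbOn K) := i1.add i2
  unfold gapf
  rw [integral_sub i12 i3, integral_add i1 i2]
  linarith

lemma gapf_nonneg {Ψ φ : E d → ℝ} {τ : SimpleFunc (E d) (E d)}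
    (hΨ : ∀ v, 0 < μ.real (τ ⁻¹' {v} ∩ Y) → ∀ x, inner ℝ x v - Ψ v ≤ φ x) {x : E d}
    (hx : 0 < μ.real (τ ⁻¹' {τ (T x)} ∩ Y)) : 0 ≤ gapf Ψ φ τ T x := by
  have := hΨ _ hx x
  unfold gapf
  linarith

lemma integral_shift_le (hKc : IsCompact K) (hKi : (interior K).Nonempty) {g q : E d → ℝ}
    (hg : Measurable g) (hgb : ∃ C, ∀ x ∈ K, |g x| ≤ C)
    (hg0 : ∀ᵐ x ∂(uniformProbOn K), 0 ≤ g x) (h : E d) (hq : Measurable q) {M : ℝ}
    (hq0 : ∀ x, 0 ≤ q x) (hqM : ∀ x, q x ≤ M) (hqs : ∀ x, q x ≠ 0 → x ∈ K ∧ x + h ∈ K) :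
    ∫ x, q x * g (x + h) ∂(uniformProbOn K) ≤ M * ∫ x, g x ∂(uniformProbOn K) := by
  have h1 : ∫ x, q x * g (x + h) ∂(uniformProbOn K) =
      ∫ x, q (x - h) * g x ∂(uniformProbOn K) := by
    have := integral_unif_shift (K := K) (f := fun x => q x * g (x + h)) h
      (fun x hx => hqs x (left_ne_zero_of_mul hx))
    rw [← this]
    simp only [sub_add_cancel]
  have hM : 0 ≤ M := (hq0 0).trans (hqM 0)
  obtain ⟨C, hC⟩ := hgb
  rw [h1, ← integral_const_mul]
  apply integral_mono_ae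
  · refine integrable_unif hKc hKi (by fun_prop) (M * C) (fun x hx => ?_)
    rw [abs_mul]
    exact mul_le_mul (by rw [abs_of_nonneg (hq0 _)]; exact hqM _) (hC x hx) (abs_nonneg _) hM
  · exact (integrable_unif hKc hKi hg C hC).const_mul M
  · filter_upwards [hg0] with x hx
    exact mul_le_mul_of_nonneg_right (hqM _) hx

/-- Part F1, assuming the gap statement. -/
theorem ae_shift_mono_of (hKc : IsCompact K) (hKi : (interior K).Nonempty)
    (hYc : IsCompact Y) (hYn : Y.Nonempty) (hμ : IsProbabilityOn Y μ) (hT : Measurable T)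
    (hTm : (uniformProbOn K).map T = μ) (hYR : ∀ x ∈ Y, ‖x‖ ≤ R) (hgap : GapStmt K R μ T) (h : E d) :
    ∀ᵐ x ∂(volume : Measure (E d)), x ∈ K → x + h ∈ K → 0 ≤ inner ℝ h (T (x + h) - T x) := by
  classical
  have hρ := isProb_unif hKc hKi
  set ρ := uniformProbOn K with hρdef
  have hR : 0 ≤ R := by
    obtain ⟨y0, hy0⟩ := hYn
    exact (norm_nonneg _).trans (hYR y0 hy0)
  set D : Set (E d) := {x | x ∈ K ∧ x + h ∈ K} with hD
  have hDm : MeasurableSet D :=
    hKc.measurableSet.inter ((measurable_id.add_const h) hKc.measurableSet)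
  set N : E d → ℝ := fun x => max (-(inner ℝ h (T (x + h) - T x))) 0 with hN
  have hNm : Measurable N := by
    have h1 : Measurable fun x => T (x + h) := hT.comp (measurable_id.add_const h)
    rw [hN]
    fun_prop
  have hTY := ae_T_mem hμ hT hTm
  have hTY' := (ae_unif_iff hKc (P := fun x => x + h ∈ K → T (x + h) ∈ Y)).2
    ((ae_unif_shift hKc (P := fun x => T x ∈ Y) h hTY).mono fun x hx _ => hx)
  have hkey : ∀ δ : ℝ, 0 < δ → ∫ x, D.indicator N x ∂ρ ≤ 2 * δ * ‖h‖ + 4 * R * δ := by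
    intro δ hδ
    obtain ⟨τ, hτ⟩ := exists_simple hYc hYn hδ
    obtain ⟨Ψ, φ, hφ, hΨ, hint⟩ := pkg hKc hKi hYc hμ hT hTm hgap τ hδ.le hτ
    have hg := gapf_integral_le hKc hKi hφ τ hT hint
    have hgm := measurable_gapf (Ψ := Ψ) hφ τ hT
    have hgb := bdd_gapf (T := T) (Ψ := Ψ) hKc hφ τ
    have hpc : ∀ᵐ x ∂ρ, T x ∈ Y ∧ 0 < μ.real (τ ⁻¹' {τ (T x)} ∩ Y) := by
      have h1 := ae_piece hYc hμ τ
      rw [← hTm] at h1
      filter_upwards [ae_of_ae_map hT.aemeasurable h1] with x hx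
      rw [hTm] at hx
      exact hx
    have hg0 : ∀ᵐ x ∂ρ, 0 ≤ gapf Ψ φ τ T x := by
      filter_upwards [hpc] with x hx using gapf_nonneg hΨ hx.2
    have hpc' := (ae_unif_iff hKc
      (P := fun x => x + h ∈ K → T (x + h) ∈ Y ∧ 0 < μ.real (τ ⁻¹' {τ (T (x + h))} ∩ Y))).2
      ((ae_unif_shift hKc (P := fun x => T x ∈ Y ∧ 0 < μ.real (τ ⁻¹' {τ (T x)} ∩ Y)) h hpc).mono
        fun x hx _ => hx)
    have hpt : ∀ᵐ x ∂ρ, D.indicator N x ≤ D.indicator (fun _ => 2 * δ * ‖h‖) x +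
        D.indicator (gapf Ψ φ τ T) x + D.indicator (fun _ => (1 : ℝ)) x * gapf Ψ φ τ T (x + h) := by
      filter_upwards [hpc, hpc'] with x hx hx'
      by_cases hxD : x ∈ D
      · simp only [Set.indicator_of_mem hxD, one_mul]
        obtain ⟨h1, h2⟩ := hx
        obtain ⟨h1', h2'⟩ := hx' hxD.2
        have g1 := gapf_nonneg hΨ h2
        have g2 := gapf_nonneg hΨ h2'
        have hd1 := hτ _ h1
        have hd2 := hτ _ h1'
        refine max_le ?_ (by positivity)
        have a1 := hΨ _ h2 (x + h)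
        have a2 := hΨ _ h2' x
        have b1 : |inner ℝ h (T x - τ (T x))| ≤ ‖h‖ * δ :=
          (abs_real_inner_le_norm _ _).trans (mul_le_mul_of_nonneg_left hd1 (norm_nonneg _))
        have b2 : |inner ℝ h (T (x + h) - τ (T (x + h)))| ≤ ‖h‖ * δ :=
          (abs_real_inner_le_norm _ _).trans (mul_le_mul_of_nonneg_left hd2 (norm_nonneg _))
        unfold gapf
        rw [inner_add_left] at a1
        rw [inner_sub_right] at b1 b2 ⊢
        rw [inner_add_left]
        have c1 := abs_le.1 b1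
        have c2 := abs_le.1 b2
        nlinarith [c1.1, c1.2, c2.1, c2.2]
      · simp only [Set.indicator_of_notMem hxD, zero_mul, add_zero, le_refl]
    have hgi : Integrable (gapf Ψ φ τ T) ρ := by
      obtain ⟨C, hC⟩ := hgb
      exact integrable_unif hKc hKi hgm C hC
    have hNi : Integrable (D.indicator N) ρ := by
      refine Integrable.of_bound (hNm.indicator hDm).aestronglyMeasurable (‖h‖ * (2 * R)) ?_
      filter_upwards [hTY, hTY'] with x hx hx'
      by_cases hxD : x ∈ D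
      · rw [Set.indicator_of_mem hxD, hN, Real.norm_eq_abs, abs_of_nonneg (le_max_right _ _)]
        refine max_le ?_ (by positivity)
        refine (neg_le_abs _).trans ((abs_real_inner_le_norm _ _).trans ?_)
        refine mul_le_mul_of_nonneg_left ?_ (norm_nonneg _)
        refine (norm_sub_le _ _).trans ?_
        have := hYR _ hx
        have := hYR _ (hx' hxD.2)
        linarith
      · rw [Set.indicator_of_notMem hxD, norm_zero]; positivity
    have i2 : Integrable (D.indicator (fun _ : E d => 2 * δ * ‖h‖)) ρ :=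
      (integrable_const _).indicator hDm
    have i3 : Integrable (D.indicator (gapf Ψ φ τ T)) ρ := hgi.indicator hDm
    have hqs : ∀ x, D.indicator (fun _ => (1 : ℝ)) x ≠ 0 → x ∈ K ∧ x + h ∈ K := by
      intro x hx
      by_contra hc
      exact hx (Set.indicator_of_notMem (show x ∉ D from hc) _)
    have hqm : Measurable (D.indicator (fun _ : E d => (1 : ℝ))) := measurable_const.indicator hDm
    have i4 : Integrable (fun x => D.indicator (fun _ => (1 : ℝ)) x * gapf Ψ φ τ T (x + h)) ρ := by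
      obtain ⟨C, hC⟩ := hgb
      have hm2 : Measurable fun x => gapf Ψ φ τ T (x + h) := hgm.comp (measurable_id.add_const h)
      refine Integrable.of_bound (hqm.mul hm2).aestronglyMeasurable C ?_
      filter_upwards [ae_mem_unif hKc] with x hx
      by_cases hxD : x ∈ D
      · rw [Set.indicator_of_mem hxD, one_mul, Real.norm_eq_abs]
        exact hC _ hxD.2
      · rw [Set.indicator_of_notMem hxD, zero_mul, norm_zero]
        exact (abs_nonneg _).trans (hC _ hx)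
    have i23 : Integrable (fun x => D.indicator (fun _ : E d => 2 * δ * ‖h‖) x +
        D.indicator (gapf Ψ φ τ T) x) ρ := i2.add i3
    have j1 : ∫ x, D.indicator (fun _ : E d => 2 * δ * ‖h‖) x ∂ρ ≤ 2 * δ * ‖h‖ := by
      have : ∫ x, D.indicator (fun _ : E d => 2 * δ * ‖h‖) x ∂ρ ≤ ∫ _, 2 * δ * ‖h‖ ∂ρ := by
        apply integral_mono i2 (integrable_const _)
        intro x
        exact Set.indicator_le_self' (fun _ _ => by positivity) x
      simpa using this
    have j2 : ∫ x, D.indicator (gapf Ψ φ τ T) x ∂ρ ≤ ∫ x, gapf Ψ φ τ T x ∂ρ := by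
      apply integral_mono_ae i3 hgi
      filter_upwards [hg0] with x hx
      by_cases hxD : x ∈ D
      · rw [Set.indicator_of_mem hxD]
      · rw [Set.indicator_of_notMem hxD]; exact hx
    have j3 : ∫ x, D.indicator (fun _ => (1 : ℝ)) x * gapf Ψ φ τ T (x + h) ∂ρ ≤
        1 * ∫ x, gapf Ψ φ τ T x ∂ρ := by
      refine integral_shift_le hKc hKi hgm hgb hg0 h hqm (M := 1) ?_ ?_ hqs
      · intro x; exact Set.indicator_nonneg (fun _ _ => zero_le_one) x
      · intro x; exact Set.indicator_le_self' (fun _ _ => zero_le_one) x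
    have := integral_mono_ae hNi (i23.add i4) hpt
    have e1 : ∫ x, ((fun x => D.indicator (fun _ : E d => 2 * δ * ‖h‖) x +
        D.indicator (gapf Ψ φ τ T) x) + fun x => D.indicator (fun _ => (1 : ℝ)) x *
          gapf Ψ φ τ T (x + h)) x ∂ρ = ∫ x, D.indicator (fun _ : E d => 2 * δ * ‖h‖) x ∂ρ +
        ∫ x, D.indicator (gapf Ψ φ τ T) x ∂ρ +
        ∫ x, D.indicator (fun _ => (1 : ℝ)) x * gapf Ψ φ τ T (x + h) ∂ρ := by
      rw [integral_add' i23 i4, integral_add i2 i3]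
    rw [e1] at this
    linarith
  have hz : ∫ x, D.indicator N x ∂ρ ≤ 0 := by
    apply le_of_forall_pos_le_add
    intro ε hε
    have hc : 0 < 2 * ‖h‖ + 4 * R + 1 := by positivity
    have := hkey (ε / (2 * ‖h‖ + 4 * R + 1)) (by positivity)
    rw [zero_add]
    refine this.trans ?_
    have h2 : 2 * (ε / (2 * ‖h‖ + 4 * R + 1)) * ‖h‖ + 4 * R * (ε / (2 * ‖h‖ + 4 * R + 1)) =
        ε * ((2 * ‖h‖ + 4 * R) / (2 * ‖h‖ + 4 * R + 1)) := by ring
    rw [h2]
    have h3 : (2 * ‖h‖ + 4 * R) / (2 * ‖h‖ + 4 * R + 1) ≤ 1 := by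
      rw [div_le_one hc]; linarith
    nlinarith
  have hN0 : ∀ x, 0 ≤ D.indicator N x := fun x =>
    Set.indicator_nonneg (fun x _ => le_max_right _ _) x
  have hNi : Integrable (D.indicator N) ρ := by
    refine Integrable.of_bound (hNm.indicator hDm).aestronglyMeasurable (‖h‖ * (2 * R)) ?_
    filter_upwards [hTY, hTY'] with x hx hx'
    by_cases hxD : x ∈ D
    · rw [Set.indicator_of_mem hxD, hN, Real.norm_eq_abs, abs_of_nonneg (le_max_right _ _)]
      refine max_le ?_ (by positivity)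
      refine (neg_le_abs _).trans ((abs_real_inner_le_norm _ _).trans ?_)
      refine mul_le_mul_of_nonneg_left ?_ (norm_nonneg _)
      refine (norm_sub_le _ _).trans ?_
      have := hYR _ hx
      have := hYR _ (hx' hxD.2)
      linarith
    · rw [Set.indicator_of_notMem hxD, norm_zero]; positivity
  have hz' : ∫ x, D.indicator N x ∂ρ = 0 := le_antisymm hz (integral_nonneg hN0)
  rw [integral_eq_zero_iff_of_nonneg hN0 hNi] at hz'
  have hz'' := (ae_unif_iff hKc (P := fun x => D.indicator N x = 0)).1 hz'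
  filter_upwards [hz''] with x hx hxK hxh
  have h1 := hx hxK
  rw [Set.indicator_of_mem (show x ∈ D from ⟨hxK, hxh⟩)] at h1
  have h2 : -(inner ℝ h (T (x + h) - T x)) ≤ N x := le_max_left _ _
  linarith

end Mono

end Crest.Agent.R082.Sh
end

-- ▼ part R082/ShiftPair
section

/-!
Row 82: discretised couplings for the shift inequality (part F2).
-/

set_option autoImplicit false

open MeasureTheory
open scoped ENNReal NNReal
open Crest.AnalysisR.OT

namespace Crest.Agent.R082.Sh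

variable {d : ℕ}

/-- The product cell of a pair. -/
def pc (Y : Set (E d)) (τ : SimpleFunc (E d) (E d)) (q : E d × E d) : Set (E d × E d) :=
  (τ ⁻¹' {q.1} ∩ Y) ×ˢ (τ ⁻¹' {q.2} ∩ Y)

/-- The charged pairs. -/
noncomputable def pairs (Y : Set (E d)) (τ : SimpleFunc (E d) (E d)) (π : Measure (E d × E d)) :
    Finset (E d × E d) := by
  classical
  exact (τ.range ×ˢ τ.range).filter (fun q => 0 < π.real (pc Y τ q))

lemma mem_pairs {Y : Set (E d)} {τ : SimpleFunc (E d) (E d)} {π : Measure (E d × E d)}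
    {q : E d × E d} :
    q ∈ pairs Y τ π ↔ (q.1 ∈ τ.range ∧ q.2 ∈ τ.range) ∧ 0 < π.real (pc Y τ q) := by
  classical
  unfold pairs
  rw [Finset.mem_filter, Finset.mem_product]

lemma measurableSet_pc {Y : Set (E d)} (hYc : IsCompact Y) (τ : SimpleFunc (E d) (E d))
    (q : E d × E d) : MeasurableSet (pc Y τ q) :=
  ((τ.measurableSet_fiber q.1).inter hYc.measurableSet).prod
    ((τ.measurableSet_fiber q.2).inter hYc.measurableSet)

lemma mem_pc {Y : Set (E d)} {τ : SimpleFunc (E d) (E d)} {q w : E d × E d} :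
    w ∈ pc Y τ q ↔ (τ w.1 = q.1 ∧ w.1 ∈ Y) ∧ (τ w.2 = q.2 ∧ w.2 ∈ Y) := by
  unfold pc
  rw [Set.mem_prod]
  rfl

section Pair

variable {K Y : Set (E d)} {π : Measure (E d × E d)}

lemma isProb_pi {μ ν : Measure (E d)} (hμ : IsProbabilityOn Y μ) (hπ : IsPairCoupling μ ν π) :
    IsProbabilityMeasure π := by
  have := hμ.1
  constructor
  have h1 : μ Set.univ = 1 := measure_univ
  rw [← hπ.1, Measure.map_apply measurable_fst MeasurableSet.univ, Set.preimage_univ] at h1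
  exact h1

lemma ae_mem_pi {μ ν : Measure (E d)} (hμ : IsProbabilityOn Y μ) (hν : IsProbabilityOn Y ν)
    (hπ : IsPairCoupling μ ν π) : ∀ᵐ w ∂π, w.1 ∈ Y ∧ w.2 ∈ Y := by
  have h1 : ∀ᵐ w ∂(π.map Prod.fst), w ∈ Y := by
    rw [hπ.1, ae_iff]; exact hμ.2
  have h2 : ∀ᵐ w ∂(π.map Prod.snd), w ∈ Y := by
    rw [hπ.2, ae_iff]; exact hν.2
  filter_upwards [ae_of_ae_map measurable_fst.aemeasurable h1,
    ae_of_ae_map measurable_snd.aemeasurable h2] with w h3 h4 using ⟨h3, h4⟩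

lemma ae_pairs [IsProbabilityMeasure π] (hY : ∀ᵐ w ∂π, w.1 ∈ Y ∧ w.2 ∈ Y)
    (τ : SimpleFunc (E d) (E d)) :
    ∀ᵐ w ∂π, (w.1 ∈ Y ∧ w.2 ∈ Y) ∧ (τ w.1, τ w.2) ∈ pairs Y τ π := by
  classical
  have h2 : ∀ᵐ w ∂π, ∀ q ∈ τ.range ×ˢ τ.range, π (pc Y τ q) = 0 → w ∉ pc Y τ q := by
    rw [Filter.eventually_all_finset]
    intro v _
    by_cases hv : π (pc Y τ v) = 0
    · have : ∀ᵐ w ∂π, w ∉ pc Y τ v := by
        rw [ae_iff]
        simp only [not_not]
        exact hv
      filter_upwards [this] with w hw _ using hw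
    · filter_upwards with w h using absurd h hv
  filter_upwards [hY, h2] with w hw1 hw2
  refine ⟨hw1, mem_pairs.2 ⟨⟨τ.mem_range_self _, τ.mem_range_self _⟩, ?_⟩⟩
  rw [measureReal_def, ENNReal.toReal_pos_iff]
  refine ⟨pos_iff_ne_zero.2 fun h0 => hw2 (τ w.1, τ w.2)
    (Finset.mem_product.2 ⟨τ.mem_range_self _, τ.mem_range_self _⟩) h0
    (mem_pc.2 ⟨⟨rfl, hw1.1⟩, ⟨rfl, hw1.2⟩⟩), measure_lt_top _ _⟩

/-- Sums over charged pairs are integrals. -/
lemma sum_pairs [IsProbabilityMeasure π] (hYc : IsCompact Y)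
    (hY : ∀ᵐ w ∂π, w.1 ∈ Y ∧ w.2 ∈ Y) (τ : SimpleFunc (E d) (E d)) (F : E d × E d → ℝ) :
    ∑ q : pairs Y τ π, π.real (pc Y τ q.1) * F q.1 = ∫ w, F (τ w.1, τ w.2) ∂π := by
  classical
  have h1 : ∀ q : pairs Y τ π, π.real (pc Y τ q.1) * F q.1 =
      ∫ w, (pc Y τ q.1).indicator (fun _ => F q.1) w ∂π := fun q => by
    rw [integral_indicator (measurableSet_pc hYc τ q.1), setIntegral_const, smul_eq_mul]
  rw [Finset.sum_congr rfl (fun q _ => h1 q), ← integral_finsetSum]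
  · apply integral_congr_ae
    filter_upwards [ae_pairs hY τ] with w hw
    rw [Finset.sum_eq_single (⟨(τ w.1, τ w.2), hw.2⟩ : pairs Y τ π)]
    · rw [Set.indicator_of_mem]
      exact mem_pc.2 ⟨⟨rfl, hw.1.1⟩, ⟨rfl, hw.1.2⟩⟩
    · intro b _ hb
      apply Set.indicator_of_notMem
      intro hwb
      have := mem_pc.1 hwb
      apply hb
      apply Subtype.ext
      exact Prod.ext this.1.1.symm this.2.1.symm
    · intro h; exact absurd (Finset.mem_univ _) h
  · intro i _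
    exact (integrable_const _).indicator (measurableSet_pc hYc τ i.1)

/-- Abstract coordinate projection. -/
structure IsProj (pr : E d × E d → E d) : Prop where
  meas : Measurable pr
  comm : ∀ (τ : E d → E d) (w : E d × E d), pr (τ w.1, τ w.2) = τ (pr w)
  mem : ∀ (Y : Set (E d)) (w : E d × E d), w.1 ∈ Y → w.2 ∈ Y → pr w ∈ Y
  coord : ∀ (a b : E d × E d), a.1 = b.1 → a.2 = b.2 → pr a = pr b

lemma isProj_fst : IsProj (Prod.fst : E d × E d → E d) :=
  ⟨measurable_fst, fun _ _ => rfl, fun _ _ h _ => h, fun _ _ h _ => h⟩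

lemma isProj_snd : IsProj (Prod.snd : E d × E d → E d) :=
  ⟨measurable_snd, fun _ _ => rfl, fun _ _ _ h => h, fun _ _ _ h => h⟩

variable {pr : E d × E d → E d} {μ : Measure (E d)} {T : E d → E d}

lemma sum_pairs_pr [IsProbabilityMeasure π] (hYc : IsCompact Y)
    (hY : ∀ᵐ w ∂π, w.1 ∈ Y ∧ w.2 ∈ Y) (τ : SimpleFunc (E d) (E d)) (hpr : IsProj pr)
    (hπ : π.map pr = μ) {ρ : Measure (E d)} (hT : Measurable T) (hTm : ρ.map T = μ)
    (Ψ : E d → ℝ) :
    ∑ q : pairs Y τ π, π.real (pc Y τ q.1) * Ψ (pr q.1) = ∫ x, Ψ (τ (T x)) ∂ρ := by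
  rw [sum_pairs hYc hY τ (fun q => Ψ (pr q))]
  have hm : Measurable fun w => Ψ (τ w) := (τ.map Ψ).measurable
  have h1 : ∫ w, Ψ (pr (τ w.1, τ w.2)) ∂π = ∫ w, Ψ (τ w) ∂(π.map pr) := by
    rw [integral_map hpr.meas.aemeasurable hm.aestronglyMeasurable]
    simp only [hpr.comm τ]
  rw [h1, hπ, ← hTm, integral_map hT.aemeasurable hm.aestronglyMeasurable]

lemma pos_pr [IsProbabilityMeasure π] (hYc : IsCompact Y) (τ : SimpleFunc (E d) (E d))
    (hpr : IsProj pr) (hπ : π.map pr = μ) {q : E d × E d} (hq : q ∈ pairs Y τ π) :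
    0 < μ.real (τ ⁻¹' {pr q} ∩ Y) := by
  have h1 := (mem_pairs.1 hq).2
  refine lt_of_lt_of_le h1 ?_
  have hB : MeasurableSet (τ ⁻¹' {pr q} ∩ Y) := (τ.measurableSet_fiber _).inter hYc.measurableSet
  rw [measureReal_def, measureReal_def, ← hπ, Measure.map_apply hpr.meas hB]
  refine ENNReal.toReal_mono (measure_ne_top _ _) (measure_mono ?_)
  intro w hw
  have := mem_pc.1 hw
  refine ⟨?_, hpr.mem Y w this.1.2 this.2.2⟩
  rw [Set.mem_preimage, Set.mem_singleton_iff, ← hpr.comm τ]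
  exact hpr.coord _ _ this.1.1 this.2.1

lemma exists_pair [IsProbabilityMeasure π] (hYc : IsCompact Y)
    (hY : ∀ᵐ w ∂π, w.1 ∈ Y ∧ w.2 ∈ Y) (τ : SimpleFunc (E d) (E d)) (hpr : IsProj pr)
    (hπ : π.map pr = μ) {v : E d} (hv : 0 < μ.real (τ ⁻¹' {v} ∩ Y)) :
    ∃ q ∈ pairs Y τ π, pr q = v := by
  by_contra hcon
  push Not at hcon
  have hB : MeasurableSet (τ ⁻¹' {v} ∩ Y) := (τ.measurableSet_fiber _).inter hYc.measurableSet
  rw [measureReal_def, ← hπ, Measure.map_apply hpr.meas hB] at hv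
  have h0 : π (pr ⁻¹' (τ ⁻¹' {v} ∩ Y)) = 0 := by
    rw [measure_eq_zero_iff_ae_notMem]
    filter_upwards [ae_pairs hY τ] with w hw hwB
    apply hcon _ hw.2
    rw [hpr.comm τ]
    exact hwB.1
  rw [h0] at hv
  simp at hv

/-- Replacing a potential on pairs by a potential on points. -/
lemma exists_point_potential [IsProbabilityMeasure π] (hYc : IsCompact Y)
    (hY : ∀ᵐ w ∂π, w.1 ∈ Y ∧ w.2 ∈ Y) (τ : SimpleFunc (E d) (E d)) (hpr : IsProj pr)
    (hπ : π.map pr = μ) [Nonempty (pairs Y τ π)] (ψ : pairs Y τ π → ℝ) :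
    ∃ Ψ : E d → ℝ, (∀ q : pairs Y τ π, Ψ (pr q.1) ≤ ψ q) ∧
      ∀ v, 0 < μ.real (τ ⁻¹' {v} ∩ Y) → ∀ x,
        inner ℝ x v - Ψ v ≤ phi (fun q : pairs Y τ π => pr q.1) ψ x := by
  classical
  refine ⟨fun v => if h : (Finset.univ.filter fun q : pairs Y τ π => pr q.1 = v).Nonempty then
    (Finset.univ.filter fun q : pairs Y τ π => pr q.1 = v).inf' h ψ else 0, ?_, ?_⟩
  · intro q
    have hq : q ∈ Finset.univ.filter fun q' : pairs Y τ π => pr q'.1 = pr q.1 := by simp
    simp only [dif_pos (show (Finset.univ.filter fun q' : pairs Y τ π => pr q'.1 = pr q.1).Nonempty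
      from ⟨q, hq⟩)]
    exact Finset.inf'_le _ hq
  · intro v hv x
    obtain ⟨q, hq, hqv⟩ := exists_pair hYc hY τ hpr hπ hv
    have hq' : (⟨q, hq⟩ : pairs Y τ π) ∈ Finset.univ.filter fun q' : pairs Y τ π => pr q'.1 = v := by
      simp [hqv]
    simp only [dif_pos (show (Finset.univ.filter fun q' : pairs Y τ π => pr q'.1 = v).Nonempty
      from ⟨_, hq'⟩)]
    obtain ⟨b, hb, hb'⟩ := Finset.exists_mem_eq_inf' (show (Finset.univ.filter
      fun q' : pairs Y τ π => pr q'.1 = v).Nonempty from ⟨_, hq'⟩) ψ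
    rw [hb']
    have hbv : pr b.1 = v := (Finset.mem_filter.1 hb).2
    have := le_phi (fun q : pairs Y τ π => pr q.1) ψ x b
    simp only [hbv] at this
    exact this

end Pair

end Crest.Agent.R082.Sh
end

-- ▼ part R082/ShiftIneq
section

/-!
Row 82: the shift inequality (part F2), assuming the gap statement and the cross difference bound.
-/

set_option autoImplicit false

open MeasureTheory
open scoped ENNReal NNReal
open Crest.AnalysisR.OT

namespace Crest.Agent.R082.Sh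

variable {d : ℕ}

/-- The statement of part X for a fixed constant. -/
def XStmt (K : Set (E d)) (C : ℝ) : Prop :=
  ∀ (ι : Type) [Fintype ι] [Nonempty ι] (m : ι → ℝ) (_ : ∀ i, 0 < m i)
      (_ : ∑ i, m i = 1) (y z : ι → E d) (_ : ∀ i j, i ≠ j → (y i, z i) ≠ (y j, z j))
      (h : E d → ℝ) (_ : Measurable h) (_ : ∀ x, |h x - 1| ≤ 1 / 2)
      (_ : ∫ x, h x ∂(uniformProbOn K) = 1),
      TT (rhoh K h) m z - TT (rhoh K h) m y - (TT (uniformProbOn K) m z - TT (uniformProbOn K) m y) ≤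
        C * Real.sqrt (∫ x, (h x - 1) ^ 2 ∂(uniformProbOn K)) *
          Real.sqrt (∑ i, m i * ‖y i - z i‖ ^ 2)

section Ineq

variable {K Y : Set (E d)}

/-- The perturbed density. -/
noncomputable def hfun (ε : ℝ) (p : E d → ℝ) (h : E d) (x : E d) : ℝ := 1 + ε * (p (x - h) - p x)

/-- Admissible bumps. -/
structure Bump (K : Set (E d)) (h : E d) (p : E d → ℝ) (M : ℝ) : Prop where
  meas : Measurable p
  nonneg : ∀ x, 0 ≤ p x
  le : ∀ x, p x ≤ M
  supp : ∀ x, p x ≠ 0 → x ∈ K ∧ x + h ∈ K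

variable {h : E d} {p : E d → ℝ} {M : ℝ}

lemma Bump.M_nonneg (hp : Bump K h p M) : 0 ≤ M := (hp.nonneg 0).trans (hp.le 0)

lemma measurable_hfun (hp : Bump K h p M) (ε : ℝ) : Measurable (hfun ε p h) := by
  have := hp.meas
  unfold hfun
  fun_prop

lemma Bump.abs_sub_le (hp : Bump K h p M) (x : E d) : |p (x - h) - p x| ≤ M := by
  rw [abs_le]
  constructor <;> linarith [hp.nonneg x, hp.le x, hp.nonneg (x - h), hp.le (x - h)]

lemma hfun_abs (hp : Bump K h p M) {ε : ℝ} (hε : 0 ≤ ε) (hεM : ε * M ≤ 1 / 2) (x : E d) :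
    |hfun ε p h x - 1| ≤ 1 / 2 := by
  unfold hfun
  rw [add_sub_cancel_left, abs_mul, abs_of_nonneg hε]
  exact (mul_le_mul_of_nonneg_left (hp.abs_sub_le x) hε).trans hεM

lemma hfun_nonneg (hp : Bump K h p M) {ε : ℝ} (hε : 0 ≤ ε) (hεM : ε * M ≤ 1 / 2) (x : E d) :
    0 ≤ hfun ε p h x := by
  have := (abs_le.1 (hfun_abs hp hε hεM x)).1
  linarith

lemma integral_rhoh {hf F : E d → ℝ} (hm : Measurable hf) (h0 : ∀ x, 0 ≤ hf x) :
    ∫ x, F x ∂(rhoh K hf) = ∫ x, hf x * F x ∂(uniformProbOn K) := by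
  unfold rhoh
  rw [integral_withDensity_eq_integral_toReal_smul (by fun_prop) (by simp)]
  refine integral_congr_ae (Filter.Eventually.of_forall fun x => ?_)
  simp only [smul_eq_mul, ENNReal.toReal_ofReal (h0 x)]

lemma integrable_bump_mul (hKc : IsCompact K) (hKi : (interior K).Nonempty) (hp : Bump K h p M)
    {F : E d → ℝ} (hF : Measurable F) {C : ℝ} (hC : ∀ x ∈ K, |F x| ≤ C) :
    Integrable (fun x => p x * F x) (uniformProbOn K) := by
  have := hp.meas
  refine integrable_unif hKc hKi (by fun_prop) (M * C) (fun x hx => ?_)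
  rw [abs_mul, abs_of_nonneg (hp.nonneg x)]
  exact mul_le_mul (hp.le x) (hC x hx) (abs_nonneg _) hp.M_nonneg

lemma integrable_bump_mul_shift (hKc : IsCompact K) (hKi : (interior K).Nonempty)
    (hp : Bump K h p M)
    {F : E d → ℝ} (hF : Measurable F) {C : ℝ} (hC : ∀ x ∈ K, |F x| ≤ C) :
    Integrable (fun x => p x * F (x + h)) (uniformProbOn K) := by
  have := hp.meas
  refine integrable_unif hKc hKi (by fun_prop) (M * C) (fun x hx => ?_)
  by_cases h0 : p x = 0
  · rw [h0, zero_mul, abs_zero]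
    exact mul_nonneg hp.M_nonneg ((abs_nonneg _).trans (hC x hx))
  · rw [abs_mul, abs_of_nonneg (hp.nonneg x)]
    exact mul_le_mul (hp.le x) (hC _ (hp.supp x h0).2) (abs_nonneg _) hp.M_nonneg

lemma integral_bump_shift (hp : Bump K h p M) (F : E d → ℝ) :
    ∫ x, p (x - h) * F x ∂(uniformProbOn K) = ∫ x, p x * F (x + h) ∂(uniformProbOn K) := by
  have := integral_unif_shift (K := K) (f := fun x => p x * F (x + h)) h
    (fun x hx => hp.supp x (left_ne_zero_of_mul hx))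
  rw [← this]
  simp only [sub_add_cancel]

lemma integral_hfun (hKc : IsCompact K) (hKi : (interior K).Nonempty) (hp : Bump K h p M) {ε : ℝ}
    {F : E d → ℝ} (hF : Measurable F) {C : ℝ} (hC : ∀ x ∈ K, |F x| ≤ C) :
    ∫ x, hfun ε p h x * F x ∂(uniformProbOn K) =
      ∫ x, F x ∂(uniformProbOn K) + ε * (∫ x, p x * F (x + h) ∂(uniformProbOn K) -
        ∫ x, p x * F x ∂(uniformProbOn K)) := by
  have hpm := hp.meas
  have i0 : Integrable F (uniformProbOn K) := integrable_unif hKc hKi hF C hC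
  have i1 : Integrable (fun x => p x * F x) (uniformProbOn K) :=
    integrable_bump_mul hKc hKi hp hF hC
  have i2 : Integrable (fun x => p (x - h) * F x) (uniformProbOn K) := by
    refine integrable_unif hKc hKi (by fun_prop) (M * C) (fun x hx => ?_)
    rw [abs_mul, abs_of_nonneg (hp.nonneg _)]
    exact mul_le_mul (hp.le _) (hC x hx) (abs_nonneg _) hp.M_nonneg
  have i3 : Integrable (fun x => ε * (p (x - h) * F x - p x * F x)) (uniformProbOn K) :=
    (i2.sub i1).const_mul ε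
  rw [← integral_bump_shift hp F, ← integral_sub i2 i1, ← integral_const_mul,
    ← integral_add i0 i3]
  refine integral_congr_ae (Filter.Eventually.of_forall fun x => ?_)
  simp only [hfun]
  ring

lemma integral_hfun_one (hKc : IsCompact K) (hKi : (interior K).Nonempty) (hp : Bump K h p M)
    {ε : ℝ} : ∫ x, hfun ε p h x ∂(uniformProbOn K) = 1 := by
  have := isProb_unif hKc hKi
  have h1 := integral_hfun hKc hKi hp (ε := ε) (F := fun _ => (1 : ℝ)) measurable_const (C := 1)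
    (fun x _ => by simp)
  simp only [mul_one, sub_self, mul_zero, add_zero] at h1
  rw [h1]
  simp

variable {π : Measure (E d × E d)} {pr : E d × E d → E d} {μ : Measure (E d)} {T : E d → E d}

lemma bdd_inner_comp (hKc : IsCompact K) (τ : SimpleFunc (E d) (E d)) (T : E d → E d) :
    ∃ C, ∀ x ∈ K, |inner ℝ x (τ (T x))| ≤ C := by
  obtain ⟨C3, hC3⟩ := bdd_comp_simple τ (fun v => ‖v‖)
  obtain ⟨C4, hC4⟩ := hKc.isBounded.exists_norm_le
  refine ⟨C4 * C3, fun x hx => ?_⟩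
  have h4 := hC3 (T x)
  rw [abs_norm] at h4
  exact (abs_real_inner_le_norm _ _).trans (mul_le_mul (hC4 x hx) h4 (norm_nonneg _)
    ((norm_nonneg _).trans (hC4 x hx)))

lemma bdd_inner_comp' (τ : SimpleFunc (E d) (E d)) (T : E d → E d) (h : E d) :
    ∃ C, ∀ x, |inner ℝ h (τ (T x))| ≤ C := by
  obtain ⟨C3, hC3⟩ := bdd_comp_simple τ (fun v => ‖v‖)
  refine ⟨‖h‖ * C3, fun x => ?_⟩
  have h4 := hC3 (T x)
  rw [abs_norm] at h4
  exact (abs_real_inner_le_norm _ _).trans (mul_le_mul_of_nonneg_left h4 (norm_nonneg _))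

lemma meas_inner_comp (τ : SimpleFunc (E d) (E d)) (hT : Measurable T) :
    Measurable fun x => inner ℝ x (τ (T x)) := by
  have hm : Measurable fun x => τ (T x) := τ.measurable.comp hT
  exact measurable_id.inner hm

lemma meas_inner_comp' (τ : SimpleFunc (E d) (E d)) (hT : Measurable T) (h : E d) :
    Measurable fun x => inner ℝ h (τ (T x)) := by
  have hm : Measurable fun x => τ (T x) := τ.measurable.comp hT
  exact measurable_const.inner hm

/-- The lower bound (weak duality), core version. -/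
lemma lower_core (hKc : IsCompact K) (hKi : (interior K).Nonempty) (hYc : IsCompact Y)
    [IsProbabilityMeasure π] (hY : ∀ᵐ w ∂π, w.1 ∈ Y ∧ w.2 ∈ Y)
    (τ : SimpleFunc (E d) (E d)) (hpr : IsProj pr) (hπ : π.map pr = μ)
    (hμ : IsProbabilityOn Y μ) (hT : Measurable T) (hTm : (uniformProbOn K).map T = μ)
    [Nonempty (pairs Y τ π)] (hp : Bump K h p M) {ε : ℝ} (hε : 0 ≤ ε) (hεM : ε * M ≤ 1 / 2)
    (ψ : pairs Y τ π → ℝ) :
    ∫ x, inner ℝ x (τ (T x)) ∂(uniformProbOn K) +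
        ε * ∫ x, p x * inner ℝ h (τ (T x)) ∂(uniformProbOn K) ≤
      (∫ x, phi (fun q : pairs Y τ π => pr q.1) ψ x ∂(uniformProbOn K) +
        ε * (∫ x, p x * phi (fun q : pairs Y τ π => pr q.1) ψ (x + h) ∂(uniformProbOn K) -
          ∫ x, p x * phi (fun q : pairs Y τ π => pr q.1) ψ x ∂(uniformProbOn K))) +
        ∑ q : pairs Y τ π, π.real (pc Y τ q.1) * ψ q := by
  have hρ := isProb_unif hKc hKi
  have hpm := hp.meas
  obtain ⟨Ψ, hΨ1, hΨ2⟩ := exists_point_potential hYc hY τ hpr hπ ψ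
  set F := phi (fun q : pairs Y τ π => pr q.1) ψ with hF
  have hFc : Continuous F := continuous_phi _ _
  obtain ⟨C1, hC1⟩ := hKc.exists_bound_of_continuousOn hFc.continuousOn
  have hC1' : ∀ x ∈ K, |F x| ≤ C1 := hC1
  have hsum : ∫ x, Ψ (τ (T x)) ∂(uniformProbOn K) ≤
      ∑ q : pairs Y τ π, π.real (pc Y τ q.1) * ψ q := by
    rw [← sum_pairs_pr hYc hY τ hpr hπ hT hTm Ψ]
    exact Finset.sum_le_sum fun q _ => mul_le_mul_of_nonneg_left (hΨ1 q) measureReal_nonneg
  refine le_trans ?_ (add_le_add_right hsum _)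
  obtain ⟨C2, hC2⟩ := bdd_comp_simple τ Ψ
  obtain ⟨C3, hC3⟩ := bdd_inner_comp hKc τ T
  obtain ⟨C4, hC4⟩ := bdd_inner_comp' τ T h
  have i0 : Integrable F (uniformProbOn K) := integrable_unif hKc hKi hFc.measurable C1 hC1'
  have i1 : Integrable (fun x => p x * F x) (uniformProbOn K) :=
    integrable_bump_mul hKc hKi hp hFc.measurable hC1'
  have i2 : Integrable (fun x => p x * F (x + h)) (uniformProbOn K) :=
    integrable_bump_mul_shift hKc hKi hp hFc.measurable hC1'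
  have i3 : Integrable (fun x => Ψ (τ (T x))) (uniformProbOn K) :=
    integrable_unif hKc hKi (measurable_comp_simple τ hT Ψ) C2 (fun x _ => hC2 _)
  have i4 : Integrable (fun x => inner ℝ x (τ (T x))) (uniformProbOn K) :=
    integrable_unif hKc hKi (meas_inner_comp τ hT) C3 hC3
  have i5 : Integrable (fun x => p x * inner ℝ h (τ (T x))) (uniformProbOn K) :=
    integrable_bump_mul hKc hKi hp (meas_inner_comp' τ hT h) (fun x _ => hC4 x)
  have i6 : Integrable (fun x => ε * (p x * F (x + h) - p x * F x)) (uniformProbOn K) :=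
    (i2.sub i1).const_mul ε
  have i7 : Integrable (fun x => F x + ε * (p x * F (x + h) - p x * F x)) (uniformProbOn K) :=
    i0.add i6
  have e1 : ∫ x, inner ℝ x (τ (T x)) ∂(uniformProbOn K) +
        ε * ∫ x, p x * inner ℝ h (τ (T x)) ∂(uniformProbOn K) =
      ∫ x, (inner ℝ x (τ (T x)) + ε * (p x * inner ℝ h (τ (T x)))) ∂(uniformProbOn K) := by
    rw [integral_add i4 (i5.const_mul ε), integral_const_mul]
  have e2 : (∫ x, F x ∂(uniformProbOn K) +
        ε * (∫ x, p x * F (x + h) ∂(uniformProbOn K) - ∫ x, p x * F x ∂(uniformProbOn K))) +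
        ∫ x, Ψ (τ (T x)) ∂(uniformProbOn K) =
      ∫ x, (F x + ε * (p x * F (x + h) - p x * F x)) + Ψ (τ (T x)) ∂(uniformProbOn K) := by
    rw [integral_add i7 i3, integral_add i0 i6, integral_const_mul, integral_sub i2 i1]
  rw [e1, e2]
  have hpc : ∀ᵐ x ∂(uniformProbOn K), T x ∈ Y ∧ 0 < μ.real (τ ⁻¹' {τ (T x)} ∩ Y) := by
    have h1 := ae_piece hYc hμ τ
    rw [← hTm] at h1
    filter_upwards [ae_of_ae_map hT.aemeasurable h1] with x hx
    rw [hTm] at hx
    exact hx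
  apply integral_mono_ae (i4.add (i5.const_mul ε)) (i7.add i3)
  filter_upwards [hpc] with x hx
  have a1 := hΨ2 _ hx.2 x
  have a2 := hΨ2 _ hx.2 (x + h)
  rw [inner_add_left] at a2
  have b0 : 0 ≤ ε * p x := mul_nonneg hε (hp.nonneg x)
  have b1 : ε * p x ≤ 1 := by
    have := mul_le_mul_of_nonneg_left (hp.le x) hε
    linarith
  simp only [Pi.add_apply]
  nlinarith [mul_le_mul_of_nonneg_left a2 b0, mul_le_mul_of_nonneg_left a1 (sub_nonneg.2 b1)]

end Ineq

end Crest.Agent.R082.Sh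
end

-- ▼ part R082/ShiftFinal

/-!
Row 82: the shift inequality (part F2), end of the proof.
-/

set_option autoImplicit false

open MeasureTheory
open scoped ENNReal NNReal
open Crest.AnalysisR.OT

namespace Crest.Agent.R082.Sh

variable {d : ℕ}

section Fin

variable {K Y : Set (E d)} {h : E d} {p : E d → ℝ} {M : ℝ}
variable {π : Measure (E d × E d)} {pr : E d × E d → E d} {μ : Measure (E d)} {T : E d → E d}

lemma ae_pos (hYc : IsCompact Y) (hμ : IsProbabilityOn Y μ) (hT : Measurable T)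
    (hTm : (uniformProbOn K).map T = μ) (τ : SimpleFunc (E d) (E d)) :
    ∀ᵐ x ∂(uniformProbOn K), T x ∈ Y ∧ 0 < μ.real (τ ⁻¹' {τ (T x)} ∩ Y) := by
  have h1 := ae_piece hYc hμ τ
  rw [← hTm] at h1
  filter_upwards [ae_of_ae_map hT.aemeasurable h1] with x hx
  rw [hTm] at hx
  exact hx

lemma Kfun_rhoh (hKc : IsCompact K) (hKi : (interior K).Nonempty) (hp : Bump K h p M) {ε : ℝ}
    (hε : 0 ≤ ε) (hεM : ε * M ≤ 1 / 2) {ι : Type} [Fintype ι] [Nonempty ι] (m : ι → ℝ)
    (y : ι → E d) (ψ : ι → ℝ) :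
    Kfun (rhoh K (hfun ε p h)) m y ψ =
      (∫ x, phi y ψ x ∂(uniformProbOn K) +
        ε * (∫ x, p x * phi y ψ (x + h) ∂(uniformProbOn K) -
          ∫ x, p x * phi y ψ x ∂(uniformProbOn K))) + ∑ i, m i * ψ i := by
  unfold Kfun
  obtain ⟨C1, hC1⟩ := hKc.exists_bound_of_continuousOn (continuous_phi y ψ).continuousOn
  rw [integral_rhoh (measurable_hfun hp ε) (hfun_nonneg hp hε hεM),
    integral_hfun hKc hKi hp (continuous_phi y ψ).measurable hC1]

/-- Lower bound for the perturbed functional. -/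
lemma TT_lower (hKc : IsCompact K) (hKi : (interior K).Nonempty) (hYc : IsCompact Y)
    [IsProbabilityMeasure π] (hY : ∀ᵐ w ∂π, w.1 ∈ Y ∧ w.2 ∈ Y)
    (τ : SimpleFunc (E d) (E d)) (hpr : IsProj pr) (hπ : π.map pr = μ)
    (hμ : IsProbabilityOn Y μ) (hT : Measurable T) (hTm : (uniformProbOn K).map T = μ)
    [Nonempty (pairs Y τ π)] (hp : Bump K h p M) {ε : ℝ} (hε : 0 ≤ ε) (hεM : ε * M ≤ 1 / 2)
    (ψ : pairs Y τ π → ℝ) :
    ∫ x, inner ℝ x (τ (T x)) ∂(uniformProbOn K) +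
        ε * ∫ x, p x * inner ℝ h (τ (T x)) ∂(uniformProbOn K) ≤
      Kfun (rhoh K (hfun ε p h)) (fun q : pairs Y τ π => π.real (pc Y τ q.1))
        (fun q => pr q.1) ψ := by
  rw [Kfun_rhoh hKc hKi hp hε hεM]
  exact lower_core hKc hKi hYc hY τ hpr hπ hμ hT hTm hp hε hεM ψ

lemma TT_lower0 (hKc : IsCompact K) (hKi : (interior K).Nonempty) (hYc : IsCompact Y)
    [IsProbabilityMeasure π] (hY : ∀ᵐ w ∂π, w.1 ∈ Y ∧ w.2 ∈ Y)
    (τ : SimpleFunc (E d) (E d)) (hpr : IsProj pr) (hπ : π.map pr = μ)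
    (hμ : IsProbabilityOn Y μ) (hT : Measurable T) (hTm : (uniformProbOn K).map T = μ)
    [Nonempty (pairs Y τ π)] (hp : Bump K h p M)
    (ψ : pairs Y τ π → ℝ) :
    ∫ x, inner ℝ x (τ (T x)) ∂(uniformProbOn K) ≤
      Kfun (uniformProbOn K) (fun q : pairs Y τ π => π.real (pc Y τ q.1))
        (fun q => pr q.1) ψ := by
  have := lower_core hKc hKi hYc hY τ hpr hπ hμ hT hTm hp (ε := 0) le_rfl (by norm_num) ψ
  simp only [zero_mul, add_zero] at this
  exact this

lemma phi_pr_le [IsProbabilityMeasure π] (hYc : IsCompact Y)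
    (τ : SimpleFunc (E d) (E d)) (hpr : IsProj pr) (hπ : π.map pr = μ)
    [Nonempty (pairs Y τ π)] {Ψ φ : E d → ℝ}
    (hΨ : ∀ v, 0 < μ.real (τ ⁻¹' {v} ∩ Y) → ∀ x, inner ℝ x v - Ψ v ≤ φ x) (x : E d) :
    phi (fun q : pairs Y τ π => pr q.1) (fun q => Ψ (pr q.1)) x ≤ φ x :=
  phi_le fun q => hΨ _ (pos_pr hYc τ hpr hπ q.2) x

/-- Upper bound for the unperturbed value. -/
lemma TT_upper0 (hKc : IsCompact K) (hKi : (interior K).Nonempty) (hYc : IsCompact Y)
    [IsProbabilityMeasure π] (hY : ∀ᵐ w ∂π, w.1 ∈ Y ∧ w.2 ∈ Y)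
    (τ : SimpleFunc (E d) (E d)) (hpr : IsProj pr) (hπ : π.map pr = μ)
    (hμ : IsProbabilityOn Y μ) (hT : Measurable T) (hTm : (uniformProbOn K).map T = μ)
    [Nonempty (pairs Y τ π)] (hp : Bump K h p M) {Ψ φ : E d → ℝ} (hφ : Continuous φ)
    (hΨ : ∀ v, 0 < μ.real (τ ⁻¹' {v} ∩ Y) → ∀ x, inner ℝ x v - Ψ v ≤ φ x) {η : ℝ}
    (hη : ∫ x, φ x ∂(uniformProbOn K) + ∫ x, Ψ (τ (T x)) ∂(uniformProbOn K) ≤
        ∫ x, inner ℝ x (τ (T x)) ∂(uniformProbOn K) + η) :
    TT (uniformProbOn K) (fun q : pairs Y τ π => π.real (pc Y τ q.1)) (fun q => pr q.1) ≤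
      ∫ x, inner ℝ x (τ (T x)) ∂(uniformProbOn K) + η := by
  unfold TT
  refine (ciInf_le ⟨∫ x, inner ℝ x (τ (T x)) ∂(uniformProbOn K), ?_⟩
    (fun q : pairs Y τ π => Ψ (pr q.1))).trans ?_
  · rintro _ ⟨ψ, rfl⟩
    exact TT_lower0 hKc hKi hYc hY τ hpr hπ hμ hT hTm hp ψ
  · refine le_trans ?_ hη
    unfold Kfun
    rw [sum_pairs_pr hYc hY τ hpr hπ hT hTm Ψ]
    refine add_le_add_left ?_ _
    have c1 := continuous_phi (fun q : pairs Y τ π => pr q.1) (fun q => Ψ (pr q.1))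
    obtain ⟨C1, hC1⟩ := hKc.exists_bound_of_continuousOn c1.continuousOn
    obtain ⟨C2, hC2⟩ := hKc.exists_bound_of_continuousOn hφ.continuousOn
    exact integral_mono (integrable_unif hKc hKi c1.measurable C1 hC1)
      (integrable_unif hKc hKi hφ.measurable C2 hC2) (phi_pr_le hYc τ hpr hπ hΨ)

/-- Upper bound for the perturbed value. -/
lemma TT_upper (hKc : IsCompact K) (hKi : (interior K).Nonempty) (hYc : IsCompact Y)
    [IsProbabilityMeasure π] (hY : ∀ᵐ w ∂π, w.1 ∈ Y ∧ w.2 ∈ Y)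
    (τ : SimpleFunc (E d) (E d)) (hpr : IsProj pr) (hπ : π.map pr = μ)
    (hμ : IsProbabilityOn Y μ) (hT : Measurable T) (hTm : (uniformProbOn K).map T = μ)
    [Nonempty (pairs Y τ π)] (hp : Bump K h p M) {ε : ℝ} (hε : 0 ≤ ε) (hεM : ε * M ≤ 1 / 2)
    {Ψ φ : E d → ℝ} (hφ : Continuous φ)
    (hΨ : ∀ v, 0 < μ.real (τ ⁻¹' {v} ∩ Y) → ∀ x, inner ℝ x v - Ψ v ≤ φ x) {η : ℝ}
    (hη : ∫ x, φ x ∂(uniformProbOn K) + ∫ x, Ψ (τ (T x)) ∂(uniformProbOn K) ≤
        ∫ x, inner ℝ x (τ (T x)) ∂(uniformProbOn K) + η) :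
    TT (rhoh K (hfun ε p h)) (fun q : pairs Y τ π => π.real (pc Y τ q.1)) (fun q => pr q.1) ≤
      ∫ x, inner ℝ x (τ (T x)) ∂(uniformProbOn K) + η +
        ε * (∫ x, p x * inner ℝ h (τ (T (x + h))) ∂(uniformProbOn K) + M * η) := by
  have hρ := isProb_unif hKc hKi
  have hpm := hp.meas
  unfold TT
  refine (ciInf_le ⟨∫ x, inner ℝ x (τ (T x)) ∂(uniformProbOn K) +
        ε * ∫ x, p x * inner ℝ h (τ (T x)) ∂(uniformProbOn K), ?_⟩
        (fun q : pairs Y τ π => Ψ (pr q.1))).trans ?_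
  · rintro _ ⟨ψ, rfl⟩
    exact TT_lower hKc hKi hYc hY τ hpr hπ hμ hT hTm hp hε hεM ψ
  obtain ⟨C2, hC2⟩ := hKc.exists_bound_of_continuousOn hφ.continuousOn
  have hC2' : ∀ x ∈ K, |φ x| ≤ C2 := hC2
  have c1 := continuous_phi (fun q : pairs Y τ π => pr q.1) (fun q => Ψ (pr q.1))
  obtain ⟨C1, hC1⟩ := hKc.exists_bound_of_continuousOn c1.continuousOn
  have i0 : Integrable φ (uniformProbOn K) := integrable_unif hKc hKi hφ.measurable C2 hC2'
  have i1 : Integrable (fun x => p x * φ x) (uniformProbOn K) :=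
    integrable_bump_mul hKc hKi hp hφ.measurable hC2'
  have i2 : Integrable (fun x => p x * φ (x + h)) (uniformProbOn K) :=
    integrable_bump_mul_shift hKc hKi hp hφ.measurable hC2'
  have hgm := measurable_gapf (Ψ := Ψ) hφ τ hT
  have hgb := bdd_gapf (T := T) (Ψ := Ψ) hKc hφ τ
  obtain ⟨C3, hC3⟩ := hgb
  have hpc := ae_pos hYc hμ hT hTm τ
  have hg0 : ∀ᵐ x ∂(uniformProbOn K), 0 ≤ gapf Ψ φ τ T x := by
    filter_upwards [hpc] with x hx using gapf_nonneg hΨ hx.2
  have hg := gapf_integral_le hKc hKi hφ τ hT hη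
  have i3 : Integrable (fun x => p x * gapf Ψ φ τ T (x + h)) (uniformProbOn K) :=
    integrable_bump_mul_shift hKc hKi hp hgm hC3
  obtain ⟨C4, hC4⟩ := bdd_inner_comp' τ T h
  have i4 : Integrable (fun x => p x * inner ℝ h (τ (T (x + h)))) (uniformProbOn K) :=
    integrable_bump_mul_shift hKc hKi hp (F := fun x => inner ℝ h (τ (T x)))
      (meas_inner_comp' τ hT h) (C := C4) (fun x _ => hC4 x)
  -- first step : pass from the finite potential to `φ`
  have s1 : Kfun (rhoh K (hfun ε p h)) (fun q : pairs Y τ π => π.real (pc Y τ q.1))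
      (fun q => pr q.1) (fun q => Ψ (pr q.1)) ≤
      (∫ x, φ x ∂(uniformProbOn K) +
        ε * (∫ x, p x * φ (x + h) ∂(uniformProbOn K) -
          ∫ x, p x * φ x ∂(uniformProbOn K))) + ∫ x, Ψ (τ (T x)) ∂(uniformProbOn K) := by
    unfold Kfun
    rw [sum_pairs_pr hYc hY τ hpr hπ hT hTm Ψ]
    refine add_le_add_left ?_ _
    rw [integral_rhoh (measurable_hfun hp ε) (hfun_nonneg hp hε hεM),
      ← integral_hfun hKc hKi hp hφ.measurable hC2']
    have hb : ∀ x, hfun ε p h x ≤ 3 / 2 := fun x => by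
      have := (abs_le.1 (hfun_abs hp hε hεM x)).2
      linarith
    apply integral_mono
    · refine integrable_unif hKc hKi ((measurable_hfun hp ε).mul c1.measurable) (3 / 2 * C1)
        (fun x hx => ?_)
      rw [abs_mul, abs_of_nonneg (hfun_nonneg hp hε hεM x)]
      exact mul_le_mul (hb x) (hC1 x hx) (abs_nonneg _) (by norm_num)
    · refine integrable_unif hKc hKi ((measurable_hfun hp ε).mul hφ.measurable) (3 / 2 * C2)
        (fun x hx => ?_)
      rw [abs_mul, abs_of_nonneg (hfun_nonneg hp hε hεM x)]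
      exact mul_le_mul (hb x) (hC2' x hx) (abs_nonneg _) (by norm_num)
    · intro x
      exact mul_le_mul_of_nonneg_left (phi_pr_le hYc τ hpr hπ hΨ x) (hfun_nonneg hp hε hεM x)
  have s2 : ∫ x, p x * φ (x + h) ∂(uniformProbOn K) - ∫ x, p x * φ x ∂(uniformProbOn K) ≤
      ∫ x, p x * inner ℝ h (τ (T (x + h))) ∂(uniformProbOn K) +
        ∫ x, p x * gapf Ψ φ τ T (x + h) ∂(uniformProbOn K) := by
    rw [← integral_sub i2 i1, ← integral_add i4 i3]
    apply integral_mono_ae (i2.sub i1) (i4.add i3)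
    have hpc' := (ae_unif_iff hKc
      (P := fun x => x + h ∈ K → T (x + h) ∈ Y ∧ 0 < μ.real (τ ⁻¹' {τ (T (x + h))} ∩ Y))).2
      ((ae_unif_shift hKc (P := fun x => T x ∈ Y ∧ 0 < μ.real (τ ⁻¹' {τ (T x)} ∩ Y)) h hpc).mono
        fun x hx _ => hx)
    filter_upwards [hpc'] with x hx
    simp only [Pi.add_apply, Pi.sub_apply]
    by_cases h0 : p x = 0
    · simp [h0]
    · have h1 := hx (hp.supp x h0).2
      have a1 := hΨ _ h1.2 x
      have : φ (x + h) - φ x ≤ inner ℝ h (τ (T (x + h))) + gapf Ψ φ τ T (x + h) := by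
        unfold gapf
        rw [inner_add_left]
        linarith
      calc p x * φ (x + h) - p x * φ x = p x * (φ (x + h) - φ x) := by ring
        _ ≤ p x * (inner ℝ h (τ (T (x + h))) + gapf Ψ φ τ T (x + h)) :=
          mul_le_mul_of_nonneg_left this (hp.nonneg x)
        _ = _ := by ring
  have s3 : ∫ x, p x * gapf Ψ φ τ T (x + h) ∂(uniformProbOn K) ≤ M * η :=
    (integral_shift_le hKc hKi hgm ⟨C3, hC3⟩ hg0 h hpm hp.nonneg hp.le hp.supp).trans
      (mul_le_mul_of_nonneg_left hg hp.M_nonneg)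
  refine s1.trans ?_
  have s4 := mul_le_mul_of_nonneg_left (s2.trans (add_le_add_right s3 _)) hε
  linarith

end Fin

end Crest.Agent.R082.Sh
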